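import Mathlib

/-!
# Cylinders and flatness for the cell argument

Cylinders with a unit axis in a real inner product space, and the relation saying that `u` is within
`a ^ 2 / R` of an affine function on the cylinder of half length `R` and radius `L * a`,
which lies in `U`.
-/

namespace Vale.Agent.P080C1.Cells

open scoped RealInnerProductSpace

noncomputable section

variable {E : Type*} [NormedAddCommGroup E] [InnerProductSpace ℝ E]

/-- Unit vector in the direction of `q`. -/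
def axisDir (q : E) : E := ‖q‖⁻¹ • q

lemma norm_axisDir {q : E} (hq : q ≠ 0) : ‖axisDir q‖ = 1 := by
  rw [axisDir, norm_smul, norm_inv, norm_norm, inv_mul_cancel₀ (norm_ne_zero_iff.2 hq)]

lemma inner_axisDir_self (q : E) : ⟪axisDir q, q⟫ = ‖q‖ := by
  rcases eq_or_ne q 0 with h | h
  · simp [h]
  · rw [axisDir, real_inner_smul_left, real_inner_self_eq_norm_sq]
    field_simp

lemma inner_le_norm_of_unit {ν : E} (hν : ‖ν‖ = 1) (v : E) : ⟪ν, v⟫ ≤ ‖v‖ := by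
  simpa [hν] using real_inner_le_norm ν v

lemma abs_inner_le_of_unit {ν : E} (hν : ‖ν‖ = 1) (v : E) : |⟪ν, v⟫| ≤ ‖v‖ := by
  simpa [hν] using abs_real_inner_le_norm ν v

lemma norm_axisDir_sub_le {p q : E} (hp : p ≠ 0) (hq : q ≠ 0) :
    ‖axisDir p - axisDir q‖ ≤ 2 * ‖p - q‖ / ‖p‖ := by
  have hp' : 0 < ‖p‖ := norm_pos_iff.2 hp
  have h : axisDir p - axisDir q = ‖p‖⁻¹ • ((p - q) + (‖q‖ - ‖p‖) • axisDir q) := by
    have hq' : ‖q‖ ≠ 0 := norm_ne_zero_iff.2 hq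
    have : ‖p‖⁻¹ * ((‖q‖ - ‖p‖) * ‖q‖⁻¹) = ‖p‖⁻¹ - ‖q‖⁻¹ := by field_simp
    simp only [axisDir, smul_add, smul_sub, smul_smul]
    rw [this, sub_smul]
    abel
  rw [h, norm_smul, norm_inv, norm_norm]
  have h1 : ‖(‖q‖ - ‖p‖) • axisDir q‖ ≤ ‖p - q‖ := by
    rw [norm_smul, norm_axisDir hq, mul_one, Real.norm_eq_abs, abs_sub_comm]
    exact abs_norm_sub_norm_le p q
  calc ‖p‖⁻¹ * ‖(p - q) + (‖q‖ - ‖p‖) • axisDir q‖
      ≤ ‖p‖⁻¹ * (2 * ‖p - q‖) := by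
        gcongr
        linarith [norm_add_le (p - q) ((‖q‖ - ‖p‖) • axisDir q)]
    _ = 2 * ‖p - q‖ / ‖p‖ := by ring

/-- Component of `v` orthogonal to the unit vector `ν`. -/
def perpPart (ν v : E) : E := v - ⟪ν, v⟫ • ν

lemma perpPart_add (ν v w : E) : perpPart ν (v + w) = perpPart ν v + perpPart ν w := by
  simp only [perpPart, inner_add_right, add_smul]; abel

lemma perpPart_sub (ν v w : E) : perpPart ν (v - w) = perpPart ν v - perpPart ν w := by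
  simp only [perpPart, inner_sub_right, sub_smul]; abel

lemma perpPart_smul (ν : E) (t : ℝ) (v : E) : perpPart ν (t • v) = t • perpPart ν v := by
  simp only [perpPart, inner_smul_right, smul_sub, smul_smul]

lemma perpPart_self {ν : E} (hν : ‖ν‖ = 1) : perpPart ν ν = 0 := by
  simp [perpPart, hν]

lemma norm_perpPart_le {ν : E} (hν : ‖ν‖ = 1) (v : E) : ‖perpPart ν v‖ ≤ ‖v‖ := by
  have h : ‖perpPart ν v‖ ^ 2 = ‖v‖ ^ 2 - ⟪ν, v⟫ ^ 2 := by
    rw [perpPart, norm_sub_sq_real, norm_smul, hν, inner_smul_right, real_inner_comm v ν,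
      Real.norm_eq_abs, mul_one, sq_abs]
    ring
  exact (pow_le_pow_iff_left₀ (norm_nonneg _) (norm_nonneg _) two_ne_zero).1
    (by rw [h]; nlinarith [sq_nonneg ⟪ν, v⟫])

/-- Changing the axis moves the orthogonal component by at most twice the angle times the
length. -/
lemma norm_perpPart_change {ν μ : E} (hμ : ‖μ‖ = 1) (v : E) :
    ‖perpPart μ v‖ ≤ ‖perpPart ν v‖ + |⟪ν, v⟫| * ‖μ - ν‖ := by
  have hv : v = perpPart ν v + ⟪ν, v⟫ • ν := by simp [perpPart]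
  have hν' : perpPart μ ν = perpPart μ (ν - μ) := by
    rw [perpPart_sub, perpPart_self hμ, sub_zero]
  calc ‖perpPart μ v‖ = ‖perpPart μ (perpPart ν v) + ⟪ν, v⟫ • perpPart μ ν‖ := by
        rw [← perpPart_smul, ← perpPart_add, ← hv]
    _ ≤ ‖perpPart μ (perpPart ν v)‖ + ‖⟪ν, v⟫ • perpPart μ ν‖ := norm_add_le _ _
    _ ≤ ‖perpPart ν v‖ + |⟪ν, v⟫| * ‖μ - ν‖ := by
        rw [norm_smul, Real.norm_eq_abs, hν']
        gcongr
        · exact norm_perpPart_le hμ _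
        · rw [norm_sub_rev μ ν]; exact norm_perpPart_le hμ _

lemma abs_inner_change {ν μ : E} (v : E) :
    |⟪μ, v⟫| ≤ |⟪ν, v⟫| + ‖μ - ν‖ * ‖v‖ := by
  have h : ⟪μ, v⟫ = ⟪ν, v⟫ + ⟪μ - ν, v⟫ := by rw [inner_sub_left]; ring
  rw [h]
  exact (abs_add_le _ _).trans (by linarith [abs_real_inner_le_norm (μ - ν) v])

lemma norm_le_inner_add_perpPart {ν : E} (hν : ‖ν‖ = 1) (v : E) :
    ‖v‖ ≤ |⟪ν, v⟫| + ‖perpPart ν v‖ := by
  have hv : v = ⟪ν, v⟫ • ν + perpPart ν v := by simp [perpPart]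
  conv_lhs => rw [hv]
  exact (norm_add_le _ _).trans_eq (by rw [norm_smul, hν, Real.norm_eq_abs, mul_one])

/-- The cylinder with centre `x`, axis `ν`, half length `R` and radius `a`. -/
def cyl (x ν : E) (R a : ℝ) : Set E :=
  {y | |⟪ν, y - x⟫| ≤ R ∧ ‖perpPart ν (y - x)‖ ≤ a}

lemma cyl_mono {x ν : E} {R R' a a' : ℝ} (hR : R ≤ R') (ha : a ≤ a') :
    cyl x ν R a ⊆ cyl x ν R' a' :=
  fun _ hy => ⟨hy.1.trans hR, hy.2.trans ha⟩

lemma self_mem_cyl {x ν : E} {R a : ℝ} (hR : 0 ≤ R) (ha : 0 ≤ a) : x ∈ cyl x ν R a := by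
  simp [cyl, perpPart, hR, ha]

/-- Cylinders with the same axis nest as soon as their centres are close enough. -/
lemma cyl_subset_cyl {x y ν : E} {R R' a a' : ℝ}
    (h1 : |⟪ν, y - x⟫| + R ≤ R') (h2 : ‖perpPart ν (y - x)‖ + a ≤ a') :
    cyl y ν R a ⊆ cyl x ν R' a' := by
  intro z hz
  have hzx : z - x = (z - y) + (y - x) := by abel
  constructor
  · rw [hzx, inner_add_right]
    linarith [abs_add_le ⟪ν, z - y⟫ ⟪ν, y - x⟫, hz.1]
  · rw [hzx, perpPart_add]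
    linarith [norm_add_le (perpPart ν (z - y)) (perpPart ν (y - x)), hz.2]

lemma ball_subset_cyl {x z ν : E} {R a ρ : ℝ} (hν : ‖ν‖ = 1)
    (h1 : |⟪ν, z - x⟫| + ρ ≤ R) (h2 : ‖perpPart ν (z - x)‖ + ρ ≤ a) :
    Metric.closedBall z ρ ⊆ cyl x ν R a := by
  intro w hw
  rw [Metric.mem_closedBall, dist_eq_norm] at hw
  have hwx : w - x = (w - z) + (z - x) := by abel
  constructor
  · rw [hwx, inner_add_right]
    linarith [abs_add_le ⟪ν, w - z⟫ ⟪ν, z - x⟫, abs_inner_le_of_unit hν (w - z)]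
  · rw [hwx, perpPart_add]
    linarith [norm_add_le (perpPart ν (w - z)) (perpPart ν (z - x)),
      norm_perpPart_le hν (w - z)]

/-- `u` differs from an affine function with gradient `q` by at most `a ^ 2 / R` on the cylinder
with half length `R` and radius `L * a` around `x`, and this cylinder lies in `U`. -/
structure FlatIn (u : E → ℝ) (U : Set E) (L : ℝ) (x q : E) (R a : ℝ) : Prop where
  lo : 1 / 2 ≤ ‖q‖
  hi : ‖q‖ ≤ 2
  sub : cyl x (axisDir q) R (L * a) ⊆ U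
  osc : ∃ c : ℝ, ∀ y ∈ cyl x (axisDir q) R (L * a), |u y - c - ⟪q, y - x⟫| ≤ a ^ 2 / R

variable {u : E → ℝ} {U : Set E} {L : ℝ}

lemma FlatIn.ne_zero {x q : E} {R a : ℝ} (h : FlatIn u U L x q R a) : q ≠ 0 := by
  intro h0
  have := h.lo
  norm_num [h0] at this

lemma FlatIn.unit {x q : E} {R a : ℝ} (h : FlatIn u U L x q R a) : ‖axisDir q‖ = 1 :=
  norm_axisDir h.ne_zero

/-- A flat cylinder gives a flat cylinder around a nearby centre with the same gradient, as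
soon as the smaller one fits and the quotient `a ^ 2 / R` does not drop. -/
lemma FlatIn.shift {x y q : E} {R R' a a' : ℝ} (h : FlatIn u U L x q R a)
    (h1 : |⟪axisDir q, y - x⟫| + R' ≤ R)
    (h2 : ‖perpPart (axisDir q) (y - x)‖ + L * a' ≤ L * a)
    (hq : a ^ 2 / R ≤ a' ^ 2 / R') : FlatIn u U L y q R' a' := by
  have hs := cyl_subset_cyl (x := x) (y := y) h1 h2
  obtain ⟨c, hc⟩ := h.osc
  refine ⟨h.lo, h.hi, hs.trans h.sub, c + ⟪q, y - x⟫, fun z hz => ?_⟩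
  refine le_trans (le_of_eq ?_) ((hc z (hs hz)).trans hq)
  congr 1
  simp only [inner_sub_right]
  ring

/-- Halving the radius and quartering the length keeps flatness. -/
lemma FlatIn.quarter {x q : E} {R a : ℝ} (h : FlatIn u U L x q R a) (hL : 0 ≤ L) (hR : 0 ≤ R)
    (ha : 0 ≤ a) : FlatIn u U L x q (R / 4) (a / 2) := by
  refine h.shift ?_ ?_ (le_of_eq (by ring))
  · simp; linarith
  · have : 0 ≤ L * a := mul_nonneg hL ha
    simp [perpPart]; linarith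

/-- Two flat cylinders containing both ends of a segment of half vector `v`. -/
lemma abs_inner_sub_le_of_flat {x₁ q₁ x₂ q₂ z v : E} {R₁ a₁ R₂ a₂ : ℝ}
    (h₁ : FlatIn u U L x₁ q₁ R₁ a₁) (h₂ : FlatIn u U L x₂ q₂ R₂ a₂)
    (hp₁ : z + v ∈ cyl x₁ (axisDir q₁) R₁ (L * a₁))
    (hm₁ : z - v ∈ cyl x₁ (axisDir q₁) R₁ (L * a₁))
    (hp₂ : z + v ∈ cyl x₂ (axisDir q₂) R₂ (L * a₂))
    (hm₂ : z - v ∈ cyl x₂ (axisDir q₂) R₂ (L * a₂)) :
    |⟪q₁ - q₂, v⟫| ≤ a₁ ^ 2 / R₁ + a₂ ^ 2 / R₂ := by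
  obtain ⟨c₁, hc₁⟩ := h₁.osc
  obtain ⟨c₂, hc₂⟩ := h₂.osc
  have e1 := abs_le.1 (hc₁ _ hp₁)
  have e2 := abs_le.1 (hc₁ _ hm₁)
  have e3 := abs_le.1 (hc₂ _ hp₂)
  have e4 := abs_le.1 (hc₂ _ hm₂)
  simp only [inner_sub_right, inner_add_right] at e1 e2 e3 e4
  rw [inner_sub_left, abs_le]
  constructor <;> linarith

/-- Two flat cylinders containing a common ball have close gradients. -/
lemma norm_sub_le_of_flat {x₁ q₁ x₂ q₂ z : E} {R₁ a₁ R₂ a₂ ρ : ℝ}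
    (h₁ : FlatIn u U L x₁ q₁ R₁ a₁) (h₂ : FlatIn u U L x₂ q₂ R₂ a₂) (hρ : 0 < ρ)
    (hb₁ : Metric.closedBall z ρ ⊆ cyl x₁ (axisDir q₁) R₁ (L * a₁))
    (hb₂ : Metric.closedBall z ρ ⊆ cyl x₂ (axisDir q₂) R₂ (L * a₂)) :
    ρ * ‖q₁ - q₂‖ ≤ a₁ ^ 2 / R₁ + a₂ ^ 2 / R₂ := by
  obtain ⟨w, hw1, hw2⟩ : ∃ w : E, ‖w‖ ≤ ρ ∧ ⟪q₁ - q₂, w⟫ = ρ * ‖q₁ - q₂‖ := by
    rcases eq_or_ne (q₁ - q₂) 0 with h | h
    · exact ⟨0, by simpa using hρ.le, by simp [h]⟩
    · refine ⟨ρ • axisDir (q₁ - q₂), ?_, ?_⟩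
      · rw [norm_smul, norm_axisDir h, mul_one, Real.norm_eq_abs, abs_of_pos hρ]
      · rw [inner_smul_right, real_inner_comm, inner_axisDir_self]
  have hp : z + w ∈ Metric.closedBall z ρ := by simpa [dist_eq_norm] using hw1
  have hm : z - w ∈ Metric.closedBall z ρ := by simpa [dist_eq_norm] using hw1
  rw [← hw2]
  exact (le_abs_self _).trans
    (abs_inner_sub_le_of_flat h₁ h₂ (hb₁ hp) (hb₁ hm) (hb₂ hp) (hb₂ hm))

end

end Vale.Agent.P080C1.Cells
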