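import Vale.Agent.P080C1.Defs
import Vale.Agent.P080C1.Cells.Geometry

/-!
# The cylinders of the frozen definitions in terms of axis and orthogonal component
-/

namespace Vale.Agent.P080C1.Cells

open scoped RealInnerProductSpace

noncomputable section

lemma norm_perpPart_sq {E : Type*} [NormedAddCommGroup E] [InnerProductSpace ℝ E] {ν : E}
    (hν : ‖ν‖ = 1) (v : E) : ‖perpPart ν v‖ ^ 2 = ‖v‖ ^ 2 - ⟪ν, v⟫ ^ 2 := by
  rw [perpPart, norm_sub_sq_real, norm_smul, hν, inner_smul_right, real_inner_comm v ν,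
    Real.norm_eq_abs, mul_one, sq_abs]
  ring

/-- The cylinder with axis `q` is the cylinder with unit axis `q / ‖q‖`. -/
lemma cyl_eq (x : E3) {q : E3} (hq : q ≠ 0) (R : ℝ) {ρ : ℝ} (hρ : 0 ≤ ρ) :
    P080C1.cyl x q R ρ = cyl x (axisDir q) R ρ := by
  have hn : 0 < ‖q‖ := norm_pos_iff.2 hq
  ext y
  have hin : ⟪axisDir q, y - x⟫ = ⟪q, y - x⟫ / ‖q‖ := by
    rw [axisDir, real_inner_smul_left]; ring
  have hp := norm_perpPart_sq (norm_axisDir hq) (y - x)
  rw [hin, div_pow] at hp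
  simp only [P080C1.cyl, cyl, Set.mem_ofPred_eq]
  rw [hin, abs_div, abs_of_pos hn, div_le_iff₀ hn]
  refine and_congr Iff.rfl ⟨fun h => ?_, fun h => ?_⟩
  · refine (pow_le_pow_iff_left₀ (norm_nonneg _) hρ two_ne_zero).1 ?_
    rw [hp, ← mul_le_mul_iff_of_pos_right (pow_pos hn 2), sub_mul,
      div_mul_cancel₀ _ (pow_ne_zero 2 hn.ne')]
    nlinarith
  · have h2 := pow_le_pow_left₀ (norm_nonneg _) h 2
    rw [hp, ← mul_le_mul_iff_of_pos_right (pow_pos hn 2), sub_mul,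
      div_mul_cancel₀ _ (pow_ne_zero 2 hn.ne')] at h2
    nlinarith

/-- Flatness in the sense of the frozen definitions gives flatness inside a set. -/
lemma flatIn_of_flatOn {u : E3 → ℝ} {U : Set E3} {L : ℝ} {x q : E3} {R a : ℝ}
    (hlo : 1 / 2 ≤ ‖q‖) (hhi : ‖q‖ ≤ 2) (hLa : 0 ≤ L * a)
    (hsub : P080C1.cyl x q R (L * a) ⊆ U)
    (hflat : FlatOn u (P080C1.cyl x q R (L * a)) q (a ^ 2 / R)) : FlatIn u U L x q R a := by
  have hq : q ≠ 0 := by intro h; norm_num [h] at hlo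
  rw [cyl_eq x hq R hLa] at hsub hflat
  obtain ⟨c, hc⟩ := hflat
  refine ⟨hlo, hhi, hsub, c + ⟪q, x⟫, fun y hy => ?_⟩
  convert hc y hy using 2
  simp only [inner_sub_right]; ring

/-- Flatness inside a set gives flatness in the sense of the frozen definitions. -/
lemma FlatIn.flatOn {u : E3 → ℝ} {U : Set E3} {L : ℝ} {x q : E3} {R a : ℝ}
    (h : FlatIn u U L x q R a) (hLa : 0 ≤ L * a) :
    FlatOn u (P080C1.cyl x q R (L * a)) q (a ^ 2 / R) := by
  obtain ⟨c, hc⟩ := h.osc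
  rw [cyl_eq x h.ne_zero R hLa]
  refine ⟨c - ⟪q, x⟫, fun y hy => ?_⟩
  convert hc y hy using 2
  simp only [inner_sub_right]; ring

end

end Vale.Agent.P080C1.Cells
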