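import Vale.Agent.P080C1.Cells.Geometry

/-!
# Chains of cells below a root cell

At level `i` the radius is `a / 2 ^ i`; the half length is `R / 2 ^ k` where `k` is the least
exponent, not below the one of the previous level, for which a flat cylinder inside the root
domain exists.
-/

namespace Vale.Agent.P080C1.Cells

open scoped RealInnerProductSpace

noncomputable section

variable {E : Type*} [NormedAddCommGroup E] [InnerProductSpace ℝ E]

/-- Data of a root cell: the set in which all cells live, gradient, half length and radius. -/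
structure Root (E : Type*) where
  U : Set E
  q : E
  R : ℝ
  a : ℝ

variable (u : E → ℝ) (L : ℝ) (r : Root E) (y : E)

/-- A cell of level `i` with length exponent `k` is possible at `y`. -/
def Cand (i k : ℕ) : Prop := ∃ q : E, FlatIn u r.U L y q (r.R / 2 ^ k) (r.a / 2 ^ i)

open scoped Classical in
/-- Length exponent and gradient of the cells of the chain at `y`. -/
def chain : ℕ → ℕ × E
  | 0 => (0, r.q)
  | i + 1 =>
    if h : ∃ k, (chain i).1 ≤ k ∧ Cand u L r y (i + 1) k then
      (Nat.find h, (Nat.find_spec h).2.choose)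
    else chain i

/-- Radius of level `i`. -/
def lrad (i : ℕ) : ℝ := r.a / 2 ^ i

/-- Length exponent of the chain. -/
def lexp (i : ℕ) : ℕ := (chain u L r y i).1

/-- Half length of the chain cell. -/
def llen (i : ℕ) : ℝ := r.R / 2 ^ lexp u L r y i

/-- Gradient of the chain cell. -/
def lgrad (i : ℕ) : E := (chain u L r y i).2

/-- Axis of the chain cell. -/
def laxis (i : ℕ) : E := axisDir (lgrad u L r y i)

/-- Flatness `(a / R) ^ 2` of the chain cell. -/
def leps (i : ℕ) : ℝ := (lrad r i / llen u L r y i) ^ 2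

/-- Hypotheses under which the chain at `y` makes sense. -/
structure RootAt : Prop where
  L_big : 5 ≤ L
  R_pos : 0 < r.R
  a_pos : 0 < r.a
  flat : FlatIn u r.U L y r.q r.R r.a

variable {u L r y}

omit [NormedAddCommGroup E] [InnerProductSpace ℝ E] in
lemma lrad_succ (i : ℕ) : lrad r (i + 1) = lrad r i / 2 := by
  simp only [lrad, pow_succ]; ring

lemma lrad_pos (h : RootAt u L r y) (i : ℕ) : 0 < lrad r i :=
  div_pos h.a_pos (by positivity)

lemma llen_pos (h : RootAt u L r y) (i : ℕ) : 0 < llen u L r y i :=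
  div_pos h.R_pos (by positivity)

lemma lexp_zero : lexp u L r y 0 = 0 := rfl

omit [NormedAddCommGroup E] [InnerProductSpace ℝ E] in
lemma len_four (k : ℕ) : r.R / 2 ^ k / 4 = r.R / 2 ^ (k + 2) := by
  rw [pow_add]; ring

lemma chain_spec (h : RootAt u L r y) : ∀ i,
    FlatIn u r.U L y (lgrad u L r y i) (llen u L r y i) (lrad r i)
  | 0 => by simpa [lgrad, llen, lexp, chain, lrad] using h.flat
  | i + 1 => by
    classical
    have hex : ∃ k, (chain u L r y i).1 ≤ k ∧ Cand u L r y (i + 1) k := by
      refine ⟨lexp u L r y i + 2, Nat.le_add_right _ 2, lgrad u L r y i, ?_⟩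
      have := (chain_spec h i).quarter (by linarith [h.L_big]) (llen_pos h i).le
        (lrad_pos h i).le
      rw [← lrad_succ] at this
      rwa [llen, len_four] at this
    simp only [lgrad, llen, lexp, chain, dif_pos hex]
    exact (Nat.find_spec hex).2.choose_spec

lemma cand_quarter (h : RootAt u L r y) (i : ℕ) :
    Cand u L r y (i + 1) (lexp u L r y i + 2) := by
  refine ⟨lgrad u L r y i, ?_⟩
  have := (chain_spec h i).quarter (by linarith [h.L_big]) (llen_pos h i).le (lrad_pos h i).le
  rw [← lrad_succ] at this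
  rwa [llen, len_four] at this

lemma cand_step (h : RootAt u L r y) (i : ℕ) :
    ∃ k, (chain u L r y i).1 ≤ k ∧ Cand u L r y (i + 1) k :=
  ⟨_, Nat.le_add_right _ 2, cand_quarter h i⟩

lemma lexp_le_succ (h : RootAt u L r y) (i : ℕ) : lexp u L r y i ≤ lexp u L r y (i + 1) := by
  classical
  simp only [lexp, chain, dif_pos (cand_step h i)]
  exact (Nat.find_spec (cand_step h i)).1

lemma lexp_mono (h : RootAt u L r y) {i j : ℕ} (hij : i ≤ j) :
    lexp u L r y i ≤ lexp u L r y j :=
  monotone_nat_of_le_succ (lexp_le_succ h) hij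

/-- Minimality: a flat cylinder of the next level bounds the next length exponent. -/
lemma lexp_succ_le (h : RootAt u L r y) (i : ℕ) {k : ℕ} (hk : Cand u L r y (i + 1) k) :
    lexp u L r y (i + 1) ≤ max (lexp u L r y i) k := by
  classical
  simp only [lexp, chain, dif_pos (cand_step h i)]
  rcases le_total (chain u L r y i).1 k with hle | hle
  · exact (Nat.find_le ⟨hle, hk⟩).trans (le_max_right _ _)
  · obtain ⟨q, hq⟩ := hk
    refine (Nat.find_le ⟨le_rfl, q, ?_⟩).trans (le_max_left _ _)
    have hp : (2 : ℝ) ^ k ≤ 2 ^ (chain u L r y i).1 := pow_le_pow_right₀ one_le_two hle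
    have hk0 : (0 : ℝ) < 2 ^ k := by positivity
    have hR := h.R_pos
    refine hq.shift ?_ ?_ ?_
    · simp only [sub_self, inner_zero_right, abs_zero, zero_add]
      exact div_le_div_of_nonneg_left hR.le hk0 hp
    · simp [perpPart]
    · exact div_le_div_of_nonneg_left (sq_nonneg _) (by positivity)
        (div_le_div_of_nonneg_left hR.le hk0 hp)

lemma lexp_succ_le_add_two (h : RootAt u L r y) (i : ℕ) :
    lexp u L r y (i + 1) ≤ lexp u L r y i + 2 := by
  simpa using lexp_succ_le h i (cand_quarter h i)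

lemma lexp_le_two_mul (h : RootAt u L r y) : ∀ i, lexp u L r y i ≤ 2 * i
  | 0 => by simp [lexp_zero]
  | i + 1 => by
    have := lexp_le_two_mul h i
    have := lexp_succ_le_add_two h i
    omega

lemma llen_anti (h : RootAt u L r y) {i j : ℕ} (hij : i ≤ j) :
    llen u L r y j ≤ llen u L r y i :=
  div_le_div_of_nonneg_left h.R_pos.le (by positivity)
    (pow_le_pow_right₀ one_le_two (lexp_mono h hij))

lemma llen_le_four_succ (h : RootAt u L r y) (i : ℕ) :
    llen u L r y i ≤ 4 * llen u L r y (i + 1) := by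
  have h1 : llen u L r y i / 4 ≤ llen u L r y (i + 1) := by
    rw [llen, len_four]
    exact div_le_div_of_nonneg_left h.R_pos.le (by positivity)
      (pow_le_pow_right₀ one_le_two (lexp_succ_le_add_two h i))
  linarith

lemma leps_succ_le (h : RootAt u L r y) (i : ℕ) :
    leps u L r y (i + 1) ≤ 4 * leps u L r y i := by
  have h1 := llen_pos h i
  have h2 := llen_pos h (i + 1)
  have h3 := lrad_pos h i
  have h4 : lrad r (i + 1) / llen u L r y (i + 1) ≤ 2 * (lrad r i / llen u L r y i) := by
    rw [lrad_succ, ← mul_div_assoc, div_le_div_iff₀ h2 h1]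
    nlinarith [llen_le_four_succ h i]
  have h5 : 0 ≤ lrad r (i + 1) / llen u L r y (i + 1) := (div_pos (lrad_pos h _) h2).le
  simp only [leps]
  nlinarith [pow_le_pow_left₀ h5 h4 2]

lemma leps_le_four_succ (h : RootAt u L r y) (i : ℕ) :
    leps u L r y i ≤ 4 * leps u L r y (i + 1) := by
  have h1 := llen_pos h i
  have h2 := llen_pos h (i + 1)
  have h3 := lrad_pos h i
  have h4 : lrad r i / llen u L r y i ≤ 2 * (lrad r (i + 1) / llen u L r y (i + 1)) := by
    rw [lrad_succ, ← mul_div_assoc, div_le_div_iff₀ h1 h2]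
    nlinarith [llen_anti h (Nat.le_succ i)]
  have h5 : 0 ≤ lrad r i / llen u L r y i := (div_pos h3 h1).le
  simp only [leps]
  nlinarith [pow_le_pow_left₀ h5 h4 2]

lemma laxis_unit (h : RootAt u L r y) (i : ℕ) : ‖laxis u L r y i‖ = 1 :=
  (chain_spec h i).unit

/-- The chain cells up to level `n` are long compared with their width. -/
def Slim (u : E → ℝ) (L : ℝ) (r : Root E) (y : E) (n : ℕ) : Prop :=
  ∀ s ≤ n, L * lrad r s ≤ llen u L r y s

lemma Slim.mono {n m : ℕ} (h : Slim u L r y n) (hm : m ≤ n) : Slim u L r y m :=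
  fun s hs => h s (hs.trans hm)

lemma norm_lgrad_step (h : RootAt u L r y) {i : ℕ} (hs : L * lrad r (i + 1) ≤ llen u L r y (i + 1)) :
    L * llen u L r y (i + 1) * ‖lgrad u L r y i - lgrad u L r y (i + 1)‖
      ≤ 5 * lrad r (i + 1) := by
  have hL : 0 < L := by linarith [h.L_big]
  have h1 := llen_pos h i
  have h2 := llen_pos h (i + 1)
  have h3 := lrad_pos h (i + 1)
  have hmono := llen_anti h (Nat.le_succ i)
  have hr : lrad r i = 2 * lrad r (i + 1) := by rw [lrad_succ]; ring
  have hb : ∀ (ν : E) (R a : ℝ), ‖ν‖ = 1 → L * lrad r (i + 1) ≤ R → L * lrad r (i + 1) ≤ L * a →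
      Metric.closedBall y (L * lrad r (i + 1)) ⊆ cyl y ν R (L * a) := by
    intro ν R a hν hR ha
    exact ball_subset_cyl hν (by simpa using hR) (by simpa [perpPart] using ha)
  have key := norm_sub_le_of_flat (chain_spec h i) (chain_spec h (i + 1)) (mul_pos hL h3)
    (hb _ _ _ (laxis_unit h i) (hs.trans hmono) (by rw [hr]; nlinarith))
    (hb _ _ _ (laxis_unit h (i + 1)) hs le_rfl)
  have h4 : lrad r i ^ 2 / llen u L r y i ≤ 4 * lrad r (i + 1) ^ 2 / llen u L r y (i + 1) := by
    rw [hr, mul_pow]; norm_num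
    exact div_le_div_of_nonneg_left (by positivity) h2 hmono
  have h5 : L * lrad r (i + 1) * ‖lgrad u L r y i - lgrad u L r y (i + 1)‖
      ≤ 5 * lrad r (i + 1) ^ 2 / llen u L r y (i + 1) := by
    refine key.trans ((add_le_add h4 le_rfl).trans (le_of_eq ?_)); ring
  rw [le_div_iff₀ h2] at h5
  refine le_of_mul_le_mul_left ?_ h3
  nlinarith [h5]

lemma norm_laxis_step (h : RootAt u L r y) {i : ℕ} (hs : L * lrad r (i + 1) ≤ llen u L r y (i + 1)) :
    L * llen u L r y (i + 1) * ‖laxis u L r y i - laxis u L r y (i + 1)‖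
      ≤ 20 * lrad r (i + 1) := by
  have hf := chain_spec h i
  have hg := chain_spec h (i + 1)
  have h1 := norm_axisDir_sub_le hf.ne_zero hg.ne_zero
  have h2 : 2 * ‖lgrad u L r y i - lgrad u L r y (i + 1)‖ / ‖lgrad u L r y i‖
      ≤ 4 * ‖lgrad u L r y i - lgrad u L r y (i + 1)‖ := by
    rw [div_le_iff₀ (by linarith [hf.lo])]
    nlinarith [hf.lo, norm_nonneg (lgrad u L r y i - lgrad u L r y (i + 1))]
  have hpos : 0 ≤ L * llen u L r y (i + 1) :=
    mul_nonneg (by linarith [h.L_big]) (llen_pos h _).le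
  have h3 := mul_le_mul_of_nonneg_left (h1.trans h2) hpos
  have h4 := norm_lgrad_step h hs
  simp only [laxis] at *
  linarith

/-- Along a slim chain the axis drifts by at most a radius, measured at the end of the cell. -/
lemma axis_drift (h : RootAt u L r y) {i n : ℕ} (hin : i ≤ n) (hs : Slim u L r y n) :
    L * llen u L r y n * ‖laxis u L r y n - laxis u L r y i‖
      ≤ 20 * (lrad r i - lrad r n) := by
  induction n, hin using Nat.le_induction with
  | base => simp
  | succ n hn ih =>
    have hih := ih (hs.mono (Nat.le_succ n))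
    have hstep := norm_laxis_step h (i := n) (hs (n + 1) le_rfl)
    have hL : 0 ≤ L := by linarith [h.L_big]
    have hmono := llen_anti h (Nat.le_succ n)
    have htri : ‖laxis u L r y (n + 1) - laxis u L r y i‖
        ≤ ‖laxis u L r y n - laxis u L r y (n + 1)‖ + ‖laxis u L r y n - laxis u L r y i‖ := by
      rw [norm_sub_rev (laxis u L r y n) (laxis u L r y (n + 1))]
      exact norm_sub_le_norm_sub_add_norm_sub _ _ _
    have h5 : L * llen u L r y (n + 1) * ‖laxis u L r y n - laxis u L r y i‖
        ≤ L * llen u L r y n * ‖laxis u L r y n - laxis u L r y i‖ := by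
      gcongr
    have h6 := mul_le_mul_of_nonneg_left htri
      (mul_nonneg hL (llen_pos h (n + 1)).le)
    have hr : lrad r n = 2 * lrad r (n + 1) := by rw [lrad_succ]; ring
    nlinarith

/-- Consecutive gradients have norms within five times the flatness. -/
lemma abs_norm_step (h : RootAt u L r y) {i : ℕ} (hs : L * lrad r (i + 1) ≤ llen u L r y (i + 1)) :
    |‖lgrad u L r y i‖ - ‖lgrad u L r y (i + 1)‖| ≤ 5 * leps u L r y (i + 1) := by
  set q := lgrad u L r y i
  set q' := lgrad u L r y (i + 1)
  set R' := llen u L r y (i + 1)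
  set a' := lrad r (i + 1)
  have hL := h.L_big
  have hR' : 0 < R' := llen_pos h (i + 1)
  have ha' : 0 < a' := lrad_pos h (i + 1)
  have hr : lrad r i = 2 * a' := by simp only [a', lrad_succ]; ring
  have hmono : R' ≤ llen u L r y i := llen_anti h (Nat.le_succ i)
  have hf : FlatIn u r.U L y q (llen u L r y i) (lrad r i) := chain_spec h i
  have hg : FlatIn u r.U L y q' R' a' := chain_spec h (i + 1)
  have hax : L * R' * ‖axisDir q - axisDir q'‖ ≤ 20 * a' := norm_laxis_step h hs
  have hmem : ∀ (μ ν : E) (R a : ℝ), ‖μ‖ = 1 → ‖ν‖ = 1 → R' ≤ R → a' ≤ a →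
      L * R' * ‖μ - ν‖ ≤ 20 * a' → ∀ t : ℝ, |t| ≤ R' → y + t • ν ∈ cyl y μ R (L * a) := by
    intro μ ν R a hμ hν hR ha hd t ht
    rw [cyl, Set.mem_ofPred_eq, add_sub_cancel_left]
    refine ⟨?_, ?_⟩
    · refine (abs_inner_le_of_unit hμ _).trans ?_
      rw [norm_smul, hν, Real.norm_eq_abs, mul_one]; exact ht.trans hR
    · rw [perpPart_smul, norm_smul, Real.norm_eq_abs]
      have h1 : ‖perpPart μ ν‖ ≤ ‖μ - ν‖ := by
        have := norm_perpPart_change (ν := ν) hμ ν
        simpa [perpPart_self hν, hν] using this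
      calc |t| * ‖perpPart μ ν‖ ≤ R' * ‖μ - ν‖ := by gcongr
        _ ≤ L * a := by
          refine le_of_mul_le_mul_left ?_ (by linarith : (0 : ℝ) < L)
          have h25 : 20 * a' ≤ L * L * a :=
            calc 20 * a' ≤ L * L * a' := by
                  have : (20 : ℝ) ≤ L * L := by nlinarith
                  gcongr
              _ ≤ L * L * a := by gcongr
          linarith
  have hbound : lrad r i ^ 2 / llen u L r y i + a' ^ 2 / R' ≤ 5 * a' ^ 2 / R' := by
    have : lrad r i ^ 2 / llen u L r y i ≤ 4 * a' ^ 2 / R' := by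
      rw [hr, mul_pow]; norm_num
      exact div_le_div_of_nonneg_left (by positivity) hR' hmono
    calc _ ≤ 4 * a' ^ 2 / R' + a' ^ 2 / R' := by gcongr
      _ = _ := by ring
  have hu : ∀ ν : E, ‖ν‖ = 1 →
      L * R' * ‖axisDir q - ν‖ ≤ 20 * a' → L * R' * ‖axisDir q' - ν‖ ≤ 20 * a' →
      R' * |⟪q - q', ν⟫| ≤ 5 * a' ^ 2 / R' := by
    intro ν hν hd1 hd2
    have key := abs_inner_sub_le_of_flat hf hg (z := y) (v := R' • ν)
      (hmem _ _ _ _ hf.unit hν hmono (by rw [hr]; linarith) hd1 R' (by rw [abs_of_pos hR']))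
      (by rw [sub_eq_add_neg, ← neg_smul]
          exact hmem _ _ _ _ hf.unit hν hmono (by rw [hr]; linarith) hd1 (-R')
            (by rw [abs_neg, abs_of_pos hR']))
      (hmem _ _ _ _ hg.unit hν le_rfl le_rfl hd2 R' (by rw [abs_of_pos hR']))
      (by rw [sub_eq_add_neg, ← neg_smul]
          exact hmem _ _ _ _ hg.unit hν le_rfl le_rfl hd2 (-R') (by rw [abs_neg, abs_of_pos hR']))
    rw [inner_smul_right, abs_mul, abs_of_pos hR'] at key
    exact key.trans hbound
  have h1 := hu (axisDir q) hf.unit (by simp; positivity) (by rwa [norm_sub_rev])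
  have h2 := hu (axisDir q') hg.unit hax (by simp; positivity)
  have e1 : ‖q‖ - ‖q'‖ ≤ |⟪q - q', axisDir q⟫| := by
    refine le_trans ?_ (le_abs_self _)
    rw [real_inner_comm, inner_sub_right, inner_axisDir_self]
    linarith [inner_le_norm_of_unit hf.unit q']
  have e2 : ‖q'‖ - ‖q‖ ≤ |⟪q - q', axisDir q'⟫| := by
    refine le_trans ?_ (neg_le_abs _)
    rw [real_inner_comm, inner_sub_right, inner_axisDir_self]
    linarith [inner_le_norm_of_unit hg.unit q]
  have hkey : R' * |‖q‖ - ‖q'‖| ≤ 5 * a' ^ 2 / R' := by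
    rcases le_total ‖q'‖ ‖q‖ with hle | hle
    · rw [abs_of_nonneg (by linarith)]; exact le_trans (by gcongr) h1
    · rw [abs_of_nonpos (by linarith), neg_sub]; exact le_trans (by gcongr) h2
  have : 5 * leps u L r y (i + 1) = 5 * a' ^ 2 / R' / R' := by
    simp only [leps, a', R']; field_simp
  rw [this, le_div_iff₀ hR']
  linarith

end

end Vale.Agent.P080C1.Cells
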