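import Vale.Agent.P080C1.Cells.Chain

/-!
# Chains through meeting tests have comparable cells

If the test cylinders of two chains below the same root meet at level `n`, then up to level `n`
their length exponents differ by at most four, their axes differ by at most a constant times
`a / R`, and their centres are within a constant times the size of the cells.
-/

namespace Vale.Agent.P080C1.Cells

open scoped RealInnerProductSpace

noncomputable section

variable {E : Type*} [NormedAddCommGroup E] [InnerProductSpace ℝ E]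
variable {u : E → ℝ} {L : ℝ} {r : Root E} {y z p : E} {T : ℝ}

/-- The test cylinder of level `n`. -/
def testCyl (u : E → ℝ) (L : ℝ) (r : Root E) (y : E) (T : ℝ) (n : ℕ) : Set E :=
  cyl y (laxis u L r y n) (llen u L r y n / 64) (T * lrad r n)

omit [NormedAddCommGroup E] [InnerProductSpace ℝ E] in
lemma lrad_anti (ha : 0 ≤ r.a) {i j : ℕ} (hij : i ≤ j) : lrad r j ≤ lrad r i :=
  div_le_div_of_nonneg_left ha (by positivity) (pow_le_pow_right₀ one_le_two hij)

/-- A point of the test cylinder of level `n` lies deep inside all earlier cells of the chain. -/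
lemma test_deep (h : RootAt u L r y) (hT : 0 ≤ T) (hLT : 64 * (T + 1) ≤ L) {i n : ℕ}
    (hin : i ≤ n) (hs : Slim u L r y n) (hp : p ∈ testCyl u L r y T n) :
    |⟪laxis u L r y i, p - y⟫| ≤ llen u L r y i / 32 ∧
      ‖perpPart (laxis u L r y i) (p - y)‖ ≤ (T + 1) * lrad r i ∧
      ‖p - y‖ ≤ llen u L r y i / 16 := by
  obtain ⟨hp1, hp2⟩ := hp
  have hL0 : 0 < L := by linarith [h.L_big]
  have hd := axis_drift h hin hs
  have hRn := llen_pos h n
  have han := lrad_pos h n
  have hai := lrad_pos h i
  have hR : llen u L r y n ≤ llen u L r y i := llen_anti h hin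
  have ha : lrad r n ≤ lrad r i := lrad_anti h.a_pos.le hin
  have hsi := hs i hin
  have hsn := hs n le_rfl
  have hTn : T * lrad r n ≤ llen u L r y n / 64 := by nlinarith
  have hnorm : ‖p - y‖ ≤ llen u L r y n / 32 := by
    linarith [norm_le_inner_add_perpPart (laxis_unit h n) (p - y)]
  set d := ‖laxis u L r y i - laxis u L r y n‖ with hdd
  have hd' : llen u L r y n * d ≤ 20 / L * lrad r i := by
    rw [hdd, norm_sub_rev, div_mul_eq_mul_div, le_div_iff₀ hL0]
    nlinarith
  have h20 : 20 / L * lrad r i ≤ lrad r i := by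
    have : 20 / L ≤ 1 := by rw [div_le_one hL0]; linarith
    nlinarith
  have hd0 : 0 ≤ d := norm_nonneg _
  have hai' : 32 * lrad r i ≤ llen u L r y i := by nlinarith
  refine ⟨?_, ?_, by linarith⟩
  · refine (abs_inner_change (ν := laxis u L r y n) (p - y)).trans ?_
    have : d * ‖p - y‖ ≤ lrad r i / 32 := by nlinarith [norm_nonneg (p - y)]
    linarith
  · refine (norm_perpPart_change (ν := laxis u L r y n) (laxis_unit h i) (p - y)).trans ?_
    have : |⟪laxis u L r y n, p - y⟫| * d ≤ lrad r i := by nlinarith [abs_nonneg ⟪laxis u L r y n, p - y⟫]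
    nlinarith

/-- The conclusion at one level. -/
def Comparable (u : E → ℝ) (L : ℝ) (r : Root E) (y z : E) (i : ℕ) : Prop :=
  lexp u L r y i ≤ lexp u L r z i + 4 ∧ lexp u L r z i ≤ lexp u L r y i + 4

lemma Comparable.symm {i : ℕ} (h : Comparable u L r y z i) : Comparable u L r z y i :=
  ⟨h.2, h.1⟩

lemma Comparable.llen_le (hy : RootAt u L r y) {i : ℕ} (h : Comparable u L r y z i) :
    llen u L r y i ≤ 16 * llen u L r z i := by
  have : (2 : ℝ) ^ lexp u L r z i ≤ 2 ^ lexp u L r y i * 16 := by
    calc (2 : ℝ) ^ lexp u L r z i ≤ 2 ^ (lexp u L r y i + 4) := pow_le_pow_right₀ one_le_two h.2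
      _ = _ := by rw [pow_add]; norm_num
  have hR := hy.R_pos
  have h1 : r.R / (2 ^ lexp u L r y i * 16) ≤ r.R / 2 ^ lexp u L r z i :=
    div_le_div_of_nonneg_left hR.le (by positivity) this
  rw [← div_div] at h1
  simp only [llen]
  linarith

lemma Comparable.leps_le (hy : RootAt u L r y) (hz : RootAt u L r z) {i : ℕ}
    (h : Comparable u L r y z i) : leps u L r y i ≤ 256 * leps u L r z i := by
  have h1 := h.symm.llen_le hz
  have hy' := llen_pos hy i
  have hz' := llen_pos hz i
  have ha := lrad_pos hy i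
  have h2 : lrad r i / llen u L r y i ≤ 16 * (lrad r i / llen u L r z i) := by
    rw [← mul_div_assoc, div_le_div_iff₀ hy' hz']
    nlinarith
  have h3 := pow_le_pow_left₀ (div_pos ha hy').le h2 2
  simp only [leps]
  nlinarith

/-- The axes of two comparable cells with a common deep point. -/
lemma axis_close (hy : RootAt u L r y) (hz : RootAt u L r z) (hT : 0 ≤ T)
    (hLT : 64 * (T + 1) ≤ L) {i n : ℕ} (hin : i ≤ n) (hsy : Slim u L r y n)
    (hsz : Slim u L r z n) (hpy : p ∈ testCyl u L r y T n) (hpz : p ∈ testCyl u L r z T n)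
    (hc : Comparable u L r y z i) :
    L * llen u L r y i * ‖laxis u L r z i - laxis u L r y i‖ ≤ 136 * lrad r i := by
  have hfy := chain_spec hy i
  have hfz := chain_spec hz i
  have hay := lrad_pos hy i
  have hRy := llen_pos hy i
  have hRz := llen_pos hz i
  have hL0 : 0 < L := by linarith [hy.L_big]
  obtain ⟨ey1, ey2, -⟩ := test_deep hy hT hLT hin hsy hpy
  obtain ⟨ez1, ez2, -⟩ := test_deep hz hT hLT hin hsz hpz
  have hρ : 0 < L * lrad r i / 2 := by positivity
  have hTa : (T + 1) * lrad r i ≤ L * lrad r i / 2 := by nlinarith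
  have hby : Metric.closedBall p (L * lrad r i / 2) ⊆
      cyl y (axisDir (lgrad u L r y i)) (llen u L r y i) (L * lrad r i) := by
    refine ball_subset_cyl hfy.unit ?_ ?_
    · have := hsy i hin; simp only [laxis] at ey1; linarith
    · simp only [laxis] at ey2; linarith
  have hbz : Metric.closedBall p (L * lrad r i / 2) ⊆
      cyl z (axisDir (lgrad u L r z i)) (llen u L r z i) (L * lrad r i) := by
    refine ball_subset_cyl hfz.unit ?_ ?_
    · have := hsz i hin; simp only [laxis] at ez1; linarith
    · simp only [laxis] at ez2; linarith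
  have key := norm_sub_le_of_flat hfz hfy hρ hbz hby
  have h1 := norm_axisDir_sub_le hfz.ne_zero hfy.ne_zero
  have h2 : 2 * ‖lgrad u L r z i - lgrad u L r y i‖ / ‖lgrad u L r z i‖
      ≤ 4 * ‖lgrad u L r z i - lgrad u L r y i‖ := by
    rw [div_le_iff₀ (by linarith [hfz.lo])]
    nlinarith [hfz.lo, norm_nonneg (lgrad u L r z i - lgrad u L r y i)]
  have h3 : lrad r i ^ 2 / llen u L r z i ≤ 16 * (lrad r i ^ 2 / llen u L r y i) := by
    rw [← mul_div_assoc, div_le_div_iff₀ hRz hRy]
    have := hc.llen_le hy
    nlinarith [sq_nonneg (lrad r i)]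
  have h4 : L * lrad r i / 2 * ‖lgrad u L r z i - lgrad u L r y i‖
      ≤ 17 * lrad r i ^ 2 / llen u L r y i := by
    refine key.trans ((add_le_add h3 le_rfl).trans (le_of_eq ?_)); ring
  rw [le_div_iff₀ hRy] at h4
  have h5 := mul_le_mul_of_nonneg_left (h1.trans h2) (mul_pos hL0 hRy).le
  refine le_of_mul_le_mul_left ?_ hay
  simp only [laxis]
  nlinarith [mul_le_mul_of_nonneg_left h5 hay.le]

/-- Offsets of the centres of two comparable cells with a common deep point. -/
lemma centre_close (hy : RootAt u L r y) (hz : RootAt u L r z) (hT : 0 ≤ T)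
    (hLT : 64 * (T + 1) ≤ L) {i n : ℕ} (hin : i ≤ n) (hsy : Slim u L r y n)
    (hsz : Slim u L r z n) (hpy : p ∈ testCyl u L r y T n) (hpz : p ∈ testCyl u L r z T n)
    (hc : Comparable u L r y z i) :
    |⟪laxis u L r z i, y - z⟫| ≤ 3 * llen u L r z i / 4 ∧
      ‖perpPart (laxis u L r z i) (y - z)‖ ≤ (2 * T + 3) * lrad r i := by
  obtain ⟨ey1, ey2, ey3⟩ := test_deep hy hT hLT hin hsy hpy
  obtain ⟨ez1, ez2, -⟩ := test_deep hz hT hLT hin hsz hpz
  have hd := axis_close hy hz hT hLT hin hsy hsz hpy hpz hc
  have hRy := llen_pos hy i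
  have hRz := llen_pos hz i
  have ha := lrad_pos hy i
  have hlen := hc.llen_le hy
  have hsz' := hsz i hin
  set d := ‖laxis u L r z i - laxis u L r y i‖
  have hd0 : 0 ≤ d := norm_nonneg _
  have hL : 64 ≤ L := by linarith
  have hd1 : llen u L r y i * d ≤ 3 * lrad r i := by
    nlinarith [mul_nonneg hRy.le hd0]
  have hyz : y - z = (p - z) - (p - y) := by abel
  have hai : 64 * lrad r i ≤ llen u L r z i := by nlinarith
  constructor
  · rw [hyz, inner_sub_right]
    refine (abs_sub _ _).trans ?_
    have h := abs_inner_change (ν := laxis u L r y i) (μ := laxis u L r z i) (p - y)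
    have : d * ‖p - y‖ ≤ lrad r i := by nlinarith [norm_nonneg (p - y)]
    linarith
  · rw [hyz, perpPart_sub]
    refine (norm_sub_le _ _).trans ?_
    have h := norm_perpPart_change (ν := laxis u L r y i) (laxis_unit hz i) (p - y)
    have : |⟪laxis u L r y i, p - y⟫| * d ≤ lrad r i := by
      nlinarith [abs_nonneg ⟪laxis u L r y i, p - y⟫]
    nlinarith

/-- A comparable cell two levels above gives a candidate for the next but one level. -/
lemma cand_of_comparable (hy : RootAt u L r y) (hz : RootAt u L r z) (hT : 0 ≤ T)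
    (hLT : 64 * (T + 1) ≤ L) {i n : ℕ} (hin : i ≤ n) (hsy : Slim u L r y n)
    (hsz : Slim u L r z n) (hpy : p ∈ testCyl u L r y T n) (hpz : p ∈ testCyl u L r z T n)
    (hc : Comparable u L r y z i) :
    Cand u L r y (i + 2) (lexp u L r z i + 4) := by
  obtain ⟨h1, h2⟩ := centre_close hy hz hT hLT hin hsy hsz hpy hpz hc
  have ha := lrad_pos hy i
  have hRz := llen_pos hz i
  refine ⟨lgrad u L r z i, ?_⟩
  have e1 : r.R / 2 ^ (lexp u L r z i + 4) = llen u L r z i / 16 := by
    simp only [llen, pow_add]; ring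
  have e2 : r.a / 2 ^ (i + 2) = lrad r i / 4 := by
    simp only [lrad, pow_add]; ring
  rw [e1, e2]
  refine (chain_spec hz i).shift ?_ ?_ (le_of_eq (by ring))
  · simp only [laxis] at h1; linarith
  · simp only [laxis] at h2
    have : (2 * T + 3) * lrad r i ≤ L * lrad r i / 2 := by nlinarith
    have := mul_nonneg (by linarith : (0 : ℝ) ≤ L) ha.le
    linarith

/-- Chains whose tests meet at level `n` are comparable at every level up to `n`. -/
theorem comparable_of_test_meet (hy : RootAt u L r y) (hz : RootAt u L r z) (hT : 0 ≤ T)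
    (hLT : 64 * (T + 1) ≤ L) {n : ℕ} (hsy : Slim u L r y n) (hsz : Slim u L r z n)
    (hpy : p ∈ testCyl u L r y T n) (hpz : p ∈ testCyl u L r z T n) :
    ∀ i ≤ n, Comparable u L r y z i := by
  intro i
  induction i using Nat.strong_induction_on with
  | _ i ih =>
    intro hin
    match i with
    | 0 => simp [Comparable, lexp_zero]
    | 1 =>
      have h1 := lexp_le_two_mul hy 1
      have h2 := lexp_le_two_mul hz 1
      exact ⟨by omega, by omega⟩
    | j + 2 =>
      have hc1 := ih (j + 1) (by omega) (by omega)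
      have hc0 := ih j (by omega) (by omega)
      have key : ∀ {a b : E}, RootAt u L r a → RootAt u L r b → Slim u L r a n → Slim u L r b n →
          p ∈ testCyl u L r a T n → p ∈ testCyl u L r b T n → Comparable u L r a b (j + 1) →
          Comparable u L r a b j →
          lexp u L r a (j + 2) ≤ lexp u L r b (j + 2) + 4 := by
        intro a b ha hb hsa hsb hpa hpb hc1 hc0
        have h : lexp u L r a (j + 2) ≤ max (lexp u L r a (j + 1)) (lexp u L r b j + 4) :=
          lexp_succ_le ha (j + 1)
          (cand_of_comparable ha hb hT hLT (by omega) hsa hsb hpa hpb hc0)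
        have h1 := hc1.1
        have h2 := lexp_mono hb (show j + 1 ≤ j + 2 by omega)
        have h3 := lexp_mono hb (show j ≤ j + 2 by omega)
        omega
      exact ⟨key hy hz hsy hsz hpy hpz hc1 hc0, key hz hy hsz hsy hpz hpy hc1.symm hc0.symm⟩

end

end Vale.Agent.P080C1.Cells
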