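import Vale.Agent.P080C1.Cells.Compare

/-!
# Selection of cells of one level with bounded overlap of their tests
-/

namespace Vale.Agent.P080C1.Cells

open scoped RealInnerProductSpace

noncomputable section

/-- A finite set contains a subset without related pairs that dominates the whole set. -/
lemma exists_separated {α : Type*} (S : Finset α) (rel : α → α → Prop)
    (hrefl : ∀ a, rel a a) (hsymm : ∀ a b, rel a b → rel b a) :
    ∃ S' ⊆ S, (∀ a ∈ S', ∀ b ∈ S', a ≠ b → ¬ rel a b) ∧ ∀ a ∈ S, ∃ b ∈ S', rel b a := by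
  classical
  induction S using Finset.induction with
  | empty => exact ⟨∅, subset_rfl, by simp, by simp⟩
  | @insert a S ha ih =>
    obtain ⟨S', hsub, hsep, hdom⟩ := ih
    by_cases h : ∃ b ∈ S', rel b a
    · refine ⟨S', hsub.trans (Finset.subset_insert a S), hsep, ?_⟩
      simp only [Finset.mem_insert, forall_eq_or_imp]
      exact ⟨h, hdom⟩
    · push Not at h
      refine ⟨insert a S', Finset.insert_subset_insert a hsub, ?_, ?_⟩
      · intro b hb c hc hne
        rw [Finset.mem_insert] at hb hc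
        rcases hb with rfl | hb <;> rcases hc with rfl | hc
        · exact absurd rfl hne
        · exact fun hr => h c hc (hsymm _ _ hr)
        · exact h b hb
        · exact hsep b hb c hc hne
      · simp only [Finset.mem_insert, forall_eq_or_imp]
        refine ⟨⟨a, Or.inl rfl, hrefl a⟩, fun b hb => ?_⟩
        obtain ⟨c, hc, hr⟩ := hdom b hb
        exact ⟨c, Or.inr hc, hr⟩

/-- Separated points in a closed ball of a proper space are boundedly many. -/
lemma exists_packing_bound {X : Type*} [PseudoMetricSpace X] [ProperSpace X] (x : X) (R : ℝ)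
    {c : ℝ} (hc : 0 < c) :
    ∃ N : ℕ, ∀ {α : Type} (S : Finset α) (f : α → X), (∀ a ∈ S, f a ∈ Metric.closedBall x R) →
      (∀ a ∈ S, ∀ b ∈ S, a ≠ b → c ≤ dist (f a) (f b)) → S.card ≤ N := by
  classical
  obtain ⟨t, -, htfin, hcov⟩ := Metric.finite_approx_of_totallyBounded
    (isCompact_closedBall x R).totallyBounded (c / 2) (half_pos hc)
  refine ⟨htfin.toFinset.card, fun {α} S f hball hsep => ?_⟩
  have hex : ∀ a ∈ S, ∃ z ∈ t, f a ∈ Metric.ball z (c / 2) := by
    intro a ha
    simpa using hcov (hball a ha)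
  have : Nonempty X := ⟨x⟩
  choose! g hg using hex
  refine Finset.card_le_card_of_injOn g (fun a ha => ?_) ?_
  · simpa using (hg a ha).1
  · intro a ha b hb heq
    by_contra hne
    have h1 : dist (f a) (g a) < c / 2 := (hg a ha).2
    have h2 : dist (f b) (g a) < c / 2 := by rw [heq]; exact (hg b hb).2
    linarith [hsep a ha b hb hne, dist_triangle_right (f a) (f b) (g a)]

variable {E : Type} [NormedAddCommGroup E] [InnerProductSpace ℝ E]

/-- Two chains are related at level `n` if the centre of one lies in the core of the other. -/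
def CoreRel (u : E → ℝ) (L : ℝ) (r : Root E) (n : ℕ) (y y' : E) : Prop :=
  y' ∈ testCyl u L r y 1 n ∨ y ∈ testCyl u L r y' 1 n

lemma CoreRel.symm {u : E → ℝ} {L : ℝ} {r : Root E} {n : ℕ} {y y' : E}
    (h : CoreRel u L r n y y') : CoreRel u L r n y' y := h.elim Or.inr Or.inl

/-- Coordinates of `y - z` in units of the cell of `z`. -/
def cellCoord (u : E → ℝ) (L : ℝ) (r : Root E) (z : E) (n : ℕ) (y : E) : ℝ × E :=
  (⟪laxis u L r z n, y - z⟫ / llen u L r z n,
    (lrad r n)⁻¹ • perpPart (laxis u L r z n) (y - z))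

/-- The tests of pairwise unrelated slim chains below one root have bounded overlap. -/
theorem exists_overlap_bound [FiniteDimensional ℝ E] (T : ℝ) (hT : 1 ≤ T) :
    ∃ N : ℕ, ∀ (u : E → ℝ) (L : ℝ) (r : Root E) (n : ℕ) (S : Finset E) (p : E),
      4096 * (T + 1) ≤ L → (∀ y ∈ S, RootAt u L r y ∧ Slim u L r y n) →
      (∀ y ∈ S, ∀ y' ∈ S, y ≠ y' → ¬ CoreRel u L r n y y') →
      (∀ y ∈ S, p ∈ testCyl u L r y T n) → S.card ≤ N := by
  classical
  obtain ⟨N, hN⟩ := exists_packing_bound ((0 : ℝ), (0 : E)) (2 * T + 3) (c := 1 / 4096)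
    (by norm_num)
  refine ⟨N, fun u L r n S p hL hS hsep hp => ?_⟩
  rcases S.eq_empty_or_nonempty with rfl | ⟨z, hz⟩
  · simp
  obtain ⟨hzr, hzs⟩ := hS z hz
  have hT0 : 0 ≤ T := by linarith
  have hLT : 64 * (T + 1) ≤ L := by linarith
  have hRz := llen_pos hzr n
  have ha := lrad_pos hzr n
  have hcomp : ∀ y ∈ S, Comparable u L r y z n := fun y hy =>
    comparable_of_test_meet (hS y hy).1 hzr hT0 hLT (hS y hy).2 hzs (hp y hy) (hp z hz) n le_rfl
  refine hN S (cellCoord u L r z n) (fun y hy => ?_) (fun y hy y' hy' hne => ?_)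
  · obtain ⟨h1, h2⟩ := centre_close (hS y hy).1 hzr hT0 hLT le_rfl (hS y hy).2 hzs (hp y hy)
      (hp z hz) (hcomp y hy)
    rw [Metric.mem_closedBall, dist_eq_norm, Prod.norm_def, max_le_iff]
    simp only [cellCoord, Prod.fst_sub, Prod.snd_sub, sub_zero]
    constructor
    · rw [Real.norm_eq_abs, abs_div, abs_of_pos hRz, div_le_iff₀ hRz]
      nlinarith
    · rw [norm_smul, norm_inv, Real.norm_eq_abs, abs_of_pos ha, inv_mul_le_iff₀ ha]
      linarith
  · by_contra hlt
    push Not at hlt
    apply hsep y hy y' hy' hne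
    left
    rw [dist_comm, dist_eq_norm, Prod.norm_def, max_lt_iff] at hlt
    simp only [cellCoord, Prod.fst_sub, Prod.snd_sub] at hlt
    obtain ⟨l1, l2⟩ := hlt
    rw [← sub_div, ← inner_sub_right, Real.norm_eq_abs, abs_div, abs_of_pos hRz,
      div_lt_iff₀ hRz] at l1
    rw [← smul_sub, ← perpPart_sub, norm_smul, norm_inv, Real.norm_eq_abs, abs_of_pos ha,
      inv_mul_lt_iff₀ ha] at l2
    have e : y' - z - (y - z) = y' - y := by abel
    rw [e] at l1 l2
    have hRy := llen_pos (hS y hy).1 n
    have hzy := (hcomp y hy).symm.llen_le hzr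
    have hax := axis_close (hS y hy).1 hzr hT0 hLT le_rfl (hS y hy).2 hzs (hp y hy) (hp z hz)
      (hcomp y hy)
    rw [norm_sub_rev] at hax
    have hL0 : 0 < L := by linarith
    have hsy := (hS y hy).2 n le_rfl
    have hsz := hzs n le_rfl
    have h1 := abs_inner_change (ν := laxis u L r z n) (μ := laxis u L r y n) (y' - y)
    have h2 := norm_perpPart_change (ν := laxis u L r z n) (laxis_unit (hS y hy).1 n) (y' - y)
    have h3 := norm_le_inner_add_perpPart (laxis_unit hzr n) (y' - y)
    have hRz' : 4096 * lrad r n ≤ llen u L r z n :=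
      le_trans (mul_le_mul_of_nonneg_right (by linarith) ha.le) hsz
    set d := ‖laxis u L r y n - laxis u L r z n‖
    set A := |⟪laxis u L r z n, y' - y⟫|
    have hd0 : 0 ≤ d := norm_nonneg _
    have hRd : llen u L r z n * d ≤ 2176 * lrad r n / L := by
      rw [le_div_iff₀ hL0]
      nlinarith [mul_le_mul_of_nonneg_left hzy (mul_nonneg hL0.le hd0)]
    have hsmall : 2176 * lrad r n / L ≤ lrad r n := by
      rw [div_le_iff₀ hL0]; nlinarith
    refine ⟨?_, ?_⟩
    · refine h1.trans ?_
      have hyn : ‖y' - y‖ ≤ llen u L r z n := by linarith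
      have : d * ‖y' - y‖ ≤ lrad r n := by nlinarith
      linarith
    · refine h2.trans ?_
      have : A * d ≤ 1 / 4096 * (llen u L r z n * d) := by nlinarith
      rw [one_mul]
      linarith

end

end Vale.Agent.P080C1.Cells
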