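import Vale.Agent.P080C1.Cells.Low
import Vale.Agent.P080C1.Cells.Select

/-!
# A low difference quotient at a host centre contradicts a large deficit

By the minimum principle the low set meets every box between the quarter and the half core, so
sampling boxes gives points whose chains have many bad levels; the selected bad cells carry more
energy than the host allows.
-/

namespace Vale.Agent.P080C1.Cells

open scoped RealInnerProductSpace

noncomputable section

variable {E : Type} [NormedAddCommGroup E] [InnerProductSpace ℝ E] {S : Setting E}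

lemma boxNorm_add_le (ν : E) {R a : ℝ} (hR : 0 < R) (ha : 0 < a) (v w : E) :
    boxNorm ν R a (v + w) ≤ boxNorm ν R a v + boxNorm ν R a w := by
  simp only [boxNorm]
  refine max_le ?_ ?_
  · refine le_trans ?_ (add_le_add (le_max_left _ _) (le_max_left _ _))
    rw [inner_add_right, ← add_div, ← mul_add]
    gcongr
    exact abs_add_le _ _
  · refine le_trans ?_ (add_le_add (le_max_right _ _) (le_max_right _ _))
    rw [perpPart_add, ← add_div]
    gcongr
    exact norm_add_le _ _

lemma boxNorm_neg (ν : E) (R a : ℝ) (v : E) : boxNorm ν R a (-v) = boxNorm ν R a v := by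
  have h : perpPart ν (-v) = -perpPart ν v := by
    simp only [perpPart, inner_neg_right, neg_smul]; abel
  simp [boxNorm, h]

lemma abs_boxNorm_sub_le (ν : E) {R a : ℝ} (hR : 0 < R) (ha : 0 < a) (v w : E) :
    |boxNorm ν R a v - boxNorm ν R a w| ≤ boxNorm ν R a (v - w) := by
  rw [abs_le]
  constructor
  · have h := boxNorm_add_le ν hR ha v (w - v)
    rw [add_sub_cancel, ← neg_sub v w, boxNorm_neg] at h
    linarith
  · have h := boxNorm_add_le ν hR ha w (v - w)
    rw [add_sub_cancel] at h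
    linarith

/-- Few sample indices lie in an interval. -/
lemma card_near_le {P : ℕ} (s : Finset (Fin P)) (k₀ : Fin P) {W : ℝ} (hW : 0 ≤ W) (hP : 0 < P)
    (h : ∀ k ∈ s, |((k : ℕ) : ℝ) / (4 * P) - ((k₀ : ℕ) : ℝ) / (4 * P)| ≤ W) :
    (s.card : ℝ) ≤ 8 * P * W + 1 := by
  classical
  have hP' : (0 : ℝ) < 4 * P := by positivity
  set n := ⌊4 * P * W⌋₊ with hn
  have hsub : s.image (fun k : Fin P => ((k : ℕ) : ℤ)) ⊆
      Finset.Icc (((k₀ : ℕ) : ℤ) - n) (((k₀ : ℕ) : ℤ) + n) := by
    intro z hz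
    obtain ⟨k, hk, rfl⟩ := Finset.mem_image.1 hz
    have h1 := h k hk
    rw [← sub_div, abs_div, abs_of_pos hP', div_le_iff₀ hP'] at h1
    have h2 : ((((k : ℕ) : ℤ) - ((k₀ : ℕ) : ℤ)).natAbs : ℝ) ≤ 4 * P * W := by
      rw [Nat.cast_natAbs]; push_cast; linarith
    have h3 : (((k : ℕ) : ℤ) - ((k₀ : ℕ) : ℤ)).natAbs ≤ n := Nat.le_floor h2
    rw [Finset.mem_Icc]
    omega
  have hcard := Finset.card_le_card hsub
  rw [Finset.card_image_of_injective _ (fun a b hab => Fin.ext (by exact_mod_cast hab)),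
    Int.card_Icc] at hcard
  have h4 : s.card ≤ 2 * n + 1 := by omega
  have h5 : (n : ℝ) ≤ 4 * P * W := Nat.floor_le (by positivity)
  have h6 : (s.card : ℝ) ≤ 2 * n + 1 := by exact_mod_cast h4
  linarith

/-- Related cells are comparable, and their centres are close in the box of the host. -/
lemma related_close (hI : Inputs S) {x q y y' : E} {R a Δ : ℝ} (hH : S.Host x q R a)
    (hy : boxNorm (axisDir q) R a (y - x) ≤ 1 / 2) (hy' : boxNorm (axisDir q) R a (y' - x) ≤ 1 / 2)
    {i : ℕ} (hv : S.ValTo (S.child x q R a) y i) (hv' : S.ValTo (S.child x q R a) y' i)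
    (he : leps S.u S.L (S.child x q R a) y i ≤ Δ) (he' : leps S.u S.L (S.child x q R a) y' i ≤ Δ)
    (hθ : ‖laxis S.u S.L (S.child x q R a) y i - axisDir q‖ ≤ Real.sqrt Δ)
    (hθ' : ‖laxis S.u S.L (S.child x q R a) y' i - axisDir q‖ ≤ Real.sqrt Δ)
    (hes : (a / R) ^ 2 ≤ Δ) (hΔ : Δ ≤ 1)
    (hrel : CoreRel S.u S.L (S.child x q R a) i y' y) :
    leps S.u S.L (S.child x q R a) y i ≤ 256 * leps S.u S.L (S.child x q R a) y' i ∧
      |boxNorm (axisDir q) R a (y - x) - boxNorm (axisDir q) R a (y' - x)|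
        ≤ 1056 * (llen S.u S.L (S.child x q R a) y' i / R) * (Real.sqrt Δ / (a / R)) := by
  set r := S.child x q R a with hrdef
  have hr : RootAt S.u S.L r y := child_root hI hH hy
  have hr' : RootAt S.u S.L r y' := child_root hI hH hy'
  have hs : Slim S.u S.L r y i := slimTo hI hr fun j hj => (hv j hj).1
  have hs' : Slim S.u S.L r y' i := slimTo hI hr' fun j hj => (hv' j hj).1
  have hL : 64 * ((1 : ℝ) + 1) ≤ S.L := by linarith [hI.L_big]
  have hselfmem : ∀ {z : E}, RootAt S.u S.L r z → z ∈ testCyl S.u S.L r z 1 i := fun hz =>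
    self_mem_cyl (by have := llen_pos hz i; positivity) (by have := lrad_pos hz i; positivity)
  have hcomp : Comparable S.u S.L r y y' i := by
    rcases hrel with h | h
    · exact comparable_of_test_meet hr hr' zero_le_one hL hs hs' (hselfmem hr) h i le_rfl
    · exact comparable_of_test_meet hr hr' zero_le_one hL hs hs' h (hselfmem hr') i le_rfl
  refine ⟨hcomp.leps_le hr hr', ?_⟩
  have hR := hH.R_pos
  have ha := hH.a_pos
  have hsd : 0 ≤ Real.sqrt Δ := Real.sqrt_nonneg _
  have hsd1 : Real.sqrt Δ ≤ 1 := Real.sqrt_le_one.2 hΔ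
  have haR : a / R ≤ Real.sqrt Δ := Real.le_sqrt_of_sq_le hes
  set ν := axisDir q
  set ℓ := llen S.u S.L r y' i
  have hℓ : 0 < ℓ := llen_pos hr' i
  -- the difference lies in one of the two cores
  have key : ∀ {z : E}, RootAt S.u S.L r z → Slim S.u S.L r z i → leps S.u S.L r z i ≤ Δ →
      ‖laxis S.u S.L r z i - ν‖ ≤ Real.sqrt Δ → llen S.u S.L r z i ≤ 16 * ℓ →
      ∀ v : E, |⟪laxis S.u S.L r z i, v⟫| ≤ llen S.u S.L r z i / 64 →
        ‖perpPart (laxis S.u S.L r z i) v‖ ≤ 1 * lrad r i →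
        boxNorm ν R a v ≤ 1056 * (ℓ / R) * (Real.sqrt Δ / (a / R)) := by
    intro z hz hsz hez hθz hlen v hv1 hv2
    have haz : lrad r i ≤ Real.sqrt Δ * llen S.u S.L r z i := by
      have : lrad r i / llen S.u S.L r z i ≤ Real.sqrt Δ := by
        rw [← sqrt_leps hz i]; exact Real.sqrt_le_sqrt hez
      rwa [div_le_iff₀ (llen_pos hz i)] at this
    have h1 := abs_inner_change (ν := laxis S.u S.L r z i) (μ := ν) v
    have h2 := norm_perpPart_change (ν := laxis S.u S.L r z i) hH.flat.unit v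
    rw [norm_sub_rev] at h1 h2
    have hnorm := norm_le_inner_add_perpPart (laxis_unit hz i) v
    have hsz' : lrad r i ≤ llen S.u S.L r z i / 64 := by
      have := hsz i le_rfl
      have := lrad_pos hz i
      nlinarith
    set d := ‖laxis S.u S.L r z i - ν‖
    have hd0 : 0 ≤ d := norm_nonneg _
    have hz0 := llen_pos hz i
    have h3 : d * ‖v‖ ≤ Real.sqrt Δ * (llen S.u S.L r z i / 32) :=
      mul_le_mul hθz (by linarith) (norm_nonneg _) hsd
    have h4 : |⟪laxis S.u S.L r z i, v⟫| * d ≤ llen S.u S.L r z i / 64 * Real.sqrt Δ :=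
      mul_le_mul hv1 hθz hd0 (by positivity)
    have hfac : 1 ≤ Real.sqrt Δ / (a / R) := by rw [le_div_iff₀ (by positivity)]; linarith
    rw [boxNorm, max_le_iff]
    constructor
    · rw [div_le_iff₀ hR]
      calc 64 * |⟪ν, v⟫| ≤ 64 * (llen S.u S.L r z i / 64 + 1 * (llen S.u S.L r z i / 32)) := by
            have : Real.sqrt Δ * (llen S.u S.L r z i / 32) ≤ 1 * (llen S.u S.L r z i / 32) := by
              gcongr
            linarith
        _ ≤ 1056 * ℓ * 1 := by linarith
        _ ≤ 1056 * ℓ * (Real.sqrt Δ / (a / R)) := by gcongr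
        _ = 1056 * (ℓ / R) * (Real.sqrt Δ / (a / R)) * R := by field_simp
    · rw [div_le_iff₀ ha]
      calc ‖perpPart ν v‖ ≤ Real.sqrt Δ * (16 * ℓ) * 2 := by
            have e1 : Real.sqrt Δ * llen S.u S.L r z i ≤ Real.sqrt Δ * (16 * ℓ) := by gcongr
            have e2 : 0 ≤ Real.sqrt Δ * llen S.u S.L r z i := by positivity
            linarith
        _ ≤ 1056 * ℓ * Real.sqrt Δ := by
            have : 0 ≤ Real.sqrt Δ * ℓ := by positivity
            linarith
        _ = 1056 * (ℓ / R) * (Real.sqrt Δ / (a / R)) * a := by field_simp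
  refine le_trans (abs_boxNorm_sub_le ν hR ha _ _) ?_
  rw [sub_sub_sub_cancel_right]
  rcases hrel with h | h
  · exact key hr' hs' he' hθ' (by linarith) _ h.1 h.2
  · rw [← boxNorm_neg, neg_sub]
    exact key hr hs he hθ (hcomp.llen_le hr) _ h.1 h.2

/-- Constant of the final inequality. -/
def C₁ (C : ℝ) (m : ℕ) : ℝ := 9 * 256 ^ 2 * 1056 * C / kst C m

/-- The deficit at a host with a low difference quotient is bounded by its flatness. -/
theorem low_point_bound (hI : Inputs S) {x q : E} {R a : ℝ} (hH : S.Host x q R a) {N : ℕ}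
    {Δ M h : ℝ} (hM : 1 ≤ M) (hΔ : Mst S.C S.m * (a / R) ^ 2 ≤ Δ) (hΔη : Δ ≤ (S.C + 2) * S.η)
    (hlow : 1 - S.η ≤ ‖q‖ - Δ) (h0 : 0 < h)
    (hhN : lrad (S.child x q R a) N ≤ Ast S.C * h * Real.sqrt Δ)
    (hhN' : Ast S.C * h * Real.sqrt Δ ≤ 2 * lrad (S.child x q R a) N)
    (hD : S.u (x + h • axisDir q) - S.u x < (‖q‖ - Δ / 4) * h)
    (hpair : ∀ y, boxNorm (axisDir q) R a (y - x) ≤ 1 / 2 → ∀ i i', i ≤ i' → i' ≤ N →
      S.ValTo (S.child x q R a) y i' →
      ‖lgrad S.u S.L (S.child x q R a) y i‖ - ‖lgrad S.u S.L (S.child x q R a) y i'‖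
        ≤ M * leps S.u S.L (S.child x q R a) y i
          + Kst S.C * leps S.u S.L (S.child x q R a) y i') :
    Real.sqrt Δ ^ 3 ≤ C₁ S.C S.m * M * (a / R) ^ 3 := by
  classical
  have hC := hI.C_pos
  have hR := hH.R_pos
  have ha := hH.a_pos
  have haR : 0 < a / R := div_pos ha hR
  have hsm : Small S ((a / R) ^ 2) Δ := small_of_deficit hI (by positivity) hΔ hΔη
  have hΔ0 := hsm.pos
  have hsd : 0 < Real.sqrt Δ := Real.sqrt_pos.2 hΔ0
  set r := S.child x q R a with hrdef
  set ν := axisDir q with hνdef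
  have hes : 16 * (a / R) ^ 2 ≤ Δ := by
    have h1 := hsm.esM
    have h2 : gst S.C * Δ ≤ 1 * Δ :=
      mul_le_mul_of_nonneg_right (by linarith [(gst_le hC).1, (cst_le hC).1]) hΔ0.le
    have h3 : (1 : ℝ) ≤ 4 ^ S.m := one_le_pow₀ (by norm_num)
    nlinarith [sq_nonneg (a / R)]
  have hΔ1 : Δ ≤ 1 :=
    hΔη.trans ((mul_le_mul_of_nonneg_left hI.eta_le (by linarith)).trans hI.small)
  have hrA : r.a = a / 2 := rfl
  have hrR : r.R = R / 4 := rfl
  have hhR : h ≤ R / 4 := by
    have hA : 2 ≤ Ast S.C := by unfold Ast; linarith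
    have h1 : lrad r N ≤ a / 2 := by
      rw [← hrA]; exact div_le_self (by rw [hrA]; positivity) (one_le_pow₀ one_le_two)
    have h2 : 4 * (a / R) ≤ Real.sqrt Δ := Real.le_sqrt_of_sq_le (by rw [mul_pow]; linarith)
    have h3 : 2 * (h * Real.sqrt Δ) ≤ a := by
      refine le_trans ?_ ((hhN'.trans (by linarith : 2 * lrad r N ≤ a)))
      rw [mul_assoc]; gcongr
    have h4 : h * (4 * (a / R)) ≤ h * Real.sqrt Δ := by gcongr
    have h5 : 8 * h * (a / R) ≤ a := by linarith
    rw [mul_div_assoc', div_le_iff₀ hR] at h5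
    have : 8 * h ≤ R := le_of_mul_le_mul_right (by linarith) ha
    linarith
  -- samples
  set P : ℕ := 4 ^ (N + 1) with hPdef
  have hP : 0 < P := by positivity
  have hP' : (0 : ℝ) < P := by exact_mod_cast hP
  have hσ : ∀ k : Fin P, 1 / 4 + ((k : ℕ) : ℝ) / (4 * P) ∈ Set.Icc (1 / 4 : ℝ) (1 / 2) := by
    intro k
    have hk : ((k : ℕ) : ℝ) ≤ P := by exact_mod_cast k.2.le
    refine ⟨le_add_of_nonneg_right (by positivity), ?_⟩
    have : ((k : ℕ) : ℝ) / (4 * P) ≤ 1 / 4 := by rw [div_le_iff₀ (by positivity)]; linarith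
    linarith
  choose y hyσ hyD using fun k : Fin P => hI.minp hH h0 hhR hD _ (hσ k)
  have hy : ∀ k, boxNorm ν R a (y k - x) ≤ 1 / 2 := fun k => by
    rw [hyσ k]; exact (hσ k).2
  choose T hT hTsum using fun k : Fin P => exists_bad_levels hI hH (hy k) hM hΔ hΔη hlow h0 hhN
    hhN' (hyD k).le (hpair (y k) (hy k))
  set K : ℕ → Finset (Fin P) := fun i => Finset.univ.filter fun k => i ∈ T k with hKdef
  have htotal : P * (kst S.C S.m * Δ ^ 2 / M)
      ≤ ∑ i ∈ Finset.range N, ∑ k ∈ K i, leps S.u S.L r (y k) i ^ 2 := by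
    have h1 : ∑ k : Fin P, kst S.C S.m * Δ ^ 2 / M
        ≤ ∑ k : Fin P, ∑ i ∈ T k, leps S.u S.L r (y k) i ^ 2 :=
      Finset.sum_le_sum fun k _ => hTsum k
    rw [Finset.sum_const, Finset.card_univ, Fintype.card_fin, nsmul_eq_mul] at h1
    refine h1.trans (le_of_eq ?_)
    rw [Finset.sum_comm' (s' := fun i => K i) (t' := Finset.range N)]
    intro k i
    simp only [Finset.mem_univ, true_and, hKdef, Finset.mem_filter, Finset.mem_range]
    exact ⟨fun h => ⟨h, (hT k i h).1⟩, fun h => h.1⟩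
  -- selection level by level
  set rel : ℕ → Fin P → Fin P → Prop := fun i k k' => k = k' ∨ CoreRel S.u S.L r i (y k) (y k')
  choose sel hsel hsep hdom using fun i => exists_separated (K i) (rel i) (fun k => Or.inl rfl)
    (fun k k' h => h.elim (fun e => Or.inl e.symm) fun e => Or.inr e.symm)
  have hmemK : ∀ {i k}, k ∈ K i → i ∈ T k := fun {i k} hk => by
    simpa [hKdef] using hk
  have hroot : ∀ k, RootAt S.u S.L r (y k) := fun k => child_root hI hH (hy k)
  have hinj : ∀ i, Set.InjOn y (sel i : Set (Fin P)) := by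
    intro i k hk k' hk' he
    by_contra hne
    refine hsep i k hk k' hk' hne (Or.inr (Or.inl ?_))
    rw [he]
    exact self_mem_cyl (by have := llen_pos (hroot k') i; positivity)
      (by have := lrad_pos (hroot k') i; positivity)
  have henergy : ∑ i ∈ Finset.range N, ∑ k ∈ sel i,
      leps S.u S.L r (y k) i ^ 2 * llen S.u S.L r (y k) i ≤ S.C * ((a / R) ^ 2) ^ 2 * R := by
    have h := hI.energy hH N (fun i => (sel i).image y)
      (fun i _ z hz => by
        obtain ⟨k, hk, rfl⟩ := Finset.mem_image.1 hz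
        obtain ⟨-, h1, h2, -⟩ := hT k i (hmemK (hsel i hk))
        exact ⟨hy k, h1, h2⟩)
      (fun i _ z hz z' hz' hne => by
        obtain ⟨k, hk, rfl⟩ := Finset.mem_image.1 hz
        obtain ⟨k', hk', rfl⟩ := Finset.mem_image.1 hz'
        exact fun hr => hsep i k hk k' hk' (fun e => hne (by rw [e])) (Or.inr hr))
    refine le_trans (le_of_eq (Finset.sum_congr rfl fun i _ => ?_)) h
    rw [Finset.sum_image (hinj i)]
  have hlevel : ∀ i ∈ Finset.range N, ∑ k ∈ K i, leps S.u S.L r (y k) i ^ 2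
      ≤ 9 * 256 ^ 2 * 1056 * P * (Real.sqrt Δ / (a / R)) / R *
        ∑ k ∈ sel i, leps S.u S.L r (y k) i ^ 2 * llen S.u S.L r (y k) i := by
    intro i hiN
    rw [Finset.mem_range] at hiN
    choose g hg hgr using fun k : K i => hdom i k k.2
    have hpt : ∀ k ∈ K i, ∀ k' ∈ sel i, rel i k' k →
        leps S.u S.L r (y k) i ≤ 256 * leps S.u S.L r (y k') i ∧
        |((k : ℕ) : ℝ) / (4 * P) - ((k' : ℕ) : ℝ) / (4 * P)|
          ≤ 1056 * (llen S.u S.L r (y k') i / R) * (Real.sqrt Δ / (a / R)) := by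
      intro k hk k' hk' hr
      obtain ⟨-, hv, -, he, hθ⟩ := hT k i (hmemK hk)
      obtain ⟨-, hv', -, he', hθ'⟩ := hT k' i (hmemK (hsel i hk'))
      rcases hr with rfl | hr
      · have := llen_pos (hroot k') i
        refine ⟨le_mul_of_one_le_left (sq_nonneg _) (by norm_num), ?_⟩
        rw [sub_self, abs_zero]; positivity
      · obtain ⟨h1, h2⟩ := related_close hI hH (hy k) (hy k') hv hv' he he' hθ hθ'
          (by linarith [sq_nonneg (a / R)]) hΔ1 hr
        refine ⟨h1, ?_⟩
        rwa [hyσ k, hyσ k', add_sub_add_left_eq_sub] at h2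
    calc ∑ k ∈ K i, leps S.u S.L r (y k) i ^ 2
        ≤ ∑ k ∈ K i, ∑ k' ∈ (sel i).filter (fun k' => rel i k' k),
            (256 * leps S.u S.L r (y k') i) ^ 2 := by
          refine Finset.sum_le_sum fun k hk => ?_
          obtain ⟨k', hk', hr⟩ := hdom i k hk
          refine le_trans (pow_le_pow_left₀ (sq_nonneg _) (hpt k hk k' hk' hr).1 2) ?_
          exact Finset.single_le_sum (f := fun j => (256 * leps S.u S.L r (y j) i) ^ 2)
            (fun j _ => sq_nonneg _) (Finset.mem_filter.2 ⟨hk', hr⟩)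
      _ = ∑ k' ∈ sel i, (((K i).filter (fun k => rel i k' k)).card : ℝ) *
            (256 * leps S.u S.L r (y k') i) ^ 2 := by
          simp only [Finset.sum_filter]
          rw [Finset.sum_comm]
          refine Finset.sum_congr rfl fun k' _ => ?_
          rw [← Finset.sum_filter, Finset.sum_const, nsmul_eq_mul]
      _ ≤ ∑ k' ∈ sel i, 9 * 256 ^ 2 * 1056 * P * (Real.sqrt Δ / (a / R)) / R *
            (leps S.u S.L r (y k') i ^ 2 * llen S.u S.L r (y k') i) := by
          refine Finset.sum_le_sum fun k' hk' => ?_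
          set W := 1056 * (llen S.u S.L r (y k') i / R) * (Real.sqrt Δ / (a / R)) with hW
          have hc := card_near_le ((K i).filter (fun k => rel i k' k)) k' (W := W)
            (by have := llen_pos (hroot k') i; positivity) hP fun k hk => by
            rw [Finset.mem_filter] at hk
            exact (hpt k hk.1 k' hk' hk.2).2
          have hPW : 1 ≤ P * W := by
            have h1 : R ≤ P * llen S.u S.L r (y k') i := by
              have he : lexp S.u S.L r (y k') i ≤ 2 * N :=
                (lexp_le_two_mul (hroot k') i).trans (by omega)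
              have h2 : r.R / 2 ^ (2 * N) ≤ llen S.u S.L r (y k') i :=
                div_le_div_of_nonneg_left (hroot k').R_pos.le (by positivity)
                  (pow_le_pow_right₀ one_le_two he)
              refine le_trans (le_of_eq ?_) (mul_le_mul_of_nonneg_left h2 hP'.le)
              rw [hrR, hPdef, pow_mul]
              push_cast
              rw [pow_succ, show ((2 : ℝ) ^ 2) = 4 by norm_num]
              field_simp
            have h2 : 1 ≤ Real.sqrt Δ / (a / R) := by
              rw [le_div_iff₀ haR, one_mul]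
              exact Real.le_sqrt_of_sq_le (by linarith [sq_nonneg (a / R)])
            have h3 : 1 ≤ P * (llen S.u S.L r (y k') i / R) := by
              rw [mul_div_assoc', le_div_iff₀ hR]; linarith
            calc (1 : ℝ) ≤ 1056 * (P * (llen S.u S.L r (y k') i / R)) * 1 := by linarith
              _ ≤ 1056 * (P * (llen S.u S.L r (y k') i / R)) * (Real.sqrt Δ / (a / R)) := by
                gcongr
              _ = P * W := by rw [hW]; ring
          calc _ ≤ (9 * P * W) * (256 * leps S.u S.L r (y k') i) ^ 2 := by gcongr; linarith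
            _ = _ := by rw [hW]; ring
      _ = _ := by rw [Finset.mul_sum]
  have hmain := htotal.trans (Finset.sum_le_sum hlevel)
  rw [← Finset.mul_sum] at hmain
  have h2 := hmain.trans (mul_le_mul_of_nonneg_left henergy
    (by have := llen_pos (hroot ⟨0, hP⟩) 0; positivity))
  have hk := kst_pos hC S.m
  have hM0 : 0 < M := by linarith
  have ht4 : Δ ^ 2 = Real.sqrt Δ ^ 4 := by
    rw [show (4 : ℕ) = 2 * 2 from rfl, pow_mul, Real.sq_sqrt hΔ0.le]
  rw [ht4] at h2
  rw [C₁]
  refine le_of_mul_le_mul_left ?_ (show 0 < P * (kst S.C S.m * Real.sqrt Δ / M) by positivity)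
  calc P * (kst S.C S.m * Real.sqrt Δ / M) * Real.sqrt Δ ^ 3
      = P * (kst S.C S.m * Real.sqrt Δ ^ 4 / M) := by ring
    _ ≤ _ := h2
    _ = _ := by field_simp

end

end Vale.Agent.P080C1.Cells
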