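import Vale.Agent.P080C1.Cells.Chain

/-!
# The inputs of the maximal ratio argument

`Setting` collects the data, `Inputs` the facts about flat cells (tilt bound, minimum principle,
dichotomy, energy) from which the transversal gradient estimate is derived.
-/

namespace Vale.Agent.P080C1.Cells

open scoped RealInnerProductSpace

noncomputable section

variable {E : Type} [NormedAddCommGroup E] [InnerProductSpace ℝ E]

/-- Data of the argument: the function, the set of the top cell, constants, and the predicate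
saying that a chain cell is bad. -/
structure Setting (E : Type) where
  u : E → ℝ
  top : Set E
  L : ℝ
  η : ℝ
  ε₁ : ℝ
  C : ℝ
  m : ℕ
  bad : Root E → E → ℕ → Prop

variable (S : Setting E)

/-- A valid chain cell: small flatness and gradient of norm almost one. -/
def Setting.Val (r : Root E) (y : E) (i : ℕ) : Prop :=
  leps S.u S.L r y i ≤ S.ε₁ ∧ 1 - S.η ≤ ‖lgrad S.u S.L r y i‖

/-- All levels up to `n` are valid. -/
def Setting.ValTo (r : Root E) (y : E) (n : ℕ) : Prop := ∀ i ≤ n, S.Val r y i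

/-- A flat cell in which chains are started. -/
structure Setting.Host (x q : E) (R a : ℝ) : Prop where
  flat : FlatIn S.u S.top S.L x q R a
  R_pos : 0 < R
  a_pos : 0 < a
  eps_le : (a / R) ^ 2 ≤ S.ε₁
  norm_ge : 1 - S.η ≤ ‖q‖

/-- The root of the chains inside a host cell. -/
def Setting.child (x q : E) (R a : ℝ) : Root E :=
  ⟨cyl x (axisDir q) R (S.L * a), q, R / 4, a / 2⟩

/-- The norm whose balls are the cores of the cell. -/
def boxNorm (ν : E) (R a : ℝ) (v : E) : ℝ := max (64 * |⟪ν, v⟫| / R) (‖perpPart ν v‖ / a)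

/-- The analytic facts used by the argument. -/
structure Inputs : Prop where
  C_pos : 0 < S.C
  L_big : 16384 ≤ S.L
  m_pos : 0 < S.m
  slim : S.ε₁ * S.L ^ 2 ≤ 1
  eta_le : S.η ≤ S.ε₁
  eps_pos : 0 < S.ε₁
  small : (S.C + 2) * S.ε₁ ≤ 1
  upper : ∀ {x q : E} {R a : ℝ}, S.Host x q R a → ‖q‖ ≤ 1 + S.C * S.η
  tilt : ∀ {x q : E} {R a : ℝ}, S.Host x q R a → ∀ {y q' : E} {R' a' : ℝ},
    FlatIn S.u S.top S.L y q' R' a' → 0 < R' → 0 < a' → (a' / R') ^ 2 ≤ S.ε₁ →
    cyl y (axisDir q') (R' / 4) (S.L / 4 * a')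
      ⊆ cyl x (axisDir q) (5 / 8 * R) (1 / 4 * (S.L * a)) →
    ‖axisDir q' - axisDir q‖ ^ 2 ≤ S.C * (max (‖q‖ - ‖q'‖) 0 + (a / R) ^ 2 + (a' / R') ^ 2) ∧
      3 / 7 * (‖q‖ - ⟪axisDir q, q'⟫) ≤ ‖q‖ - ‖q'‖ + S.C * ((a / R) ^ 2 + (a' / R') ^ 2
        + a' / R' * ‖axisDir q' - axisDir q‖)
  minp : ∀ {x q : E} {R a : ℝ}, S.Host x q R a → ∀ {h c : ℝ}, 0 < h → h ≤ R / 4 →
    S.u (x + h • axisDir q) - S.u x < c * h → ∀ σ ∈ Set.Icc (1 / 4 : ℝ) (1 / 2),
      ∃ y, boxNorm (axisDir q) R a (y - x) = σ ∧ S.u (y + h • axisDir q) - S.u y < c * h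
  dich : ∀ {x q : E} {R a : ℝ}, S.Host x q R a → ∀ {y : E} {i : ℕ},
    boxNorm (axisDir q) R a (y - x) ≤ 1 / 2 → S.ValTo (S.child x q R a) y i →
    ¬ S.bad (S.child x q R a) y i →
    leps S.u S.L (S.child x q R a) y (i + S.m) ≤ leps S.u S.L (S.child x q R a) y i / 4
  energy : ∀ {x q : E} {R a : ℝ}, S.Host x q R a → ∀ (N : ℕ) (sel : ℕ → Finset E),
    (∀ i < N, ∀ y ∈ sel i, boxNorm (axisDir q) R a (y - x) ≤ 1 / 2 ∧
      S.ValTo (S.child x q R a) y i ∧ S.bad (S.child x q R a) y i) →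
    (∀ i < N, ∀ y ∈ sel i, ∀ y' ∈ sel i, y ≠ y' →
      ¬ (y' ∈ cyl y (laxis S.u S.L (S.child x q R a) y i)
            (llen S.u S.L (S.child x q R a) y i / 64) (1 * lrad (S.child x q R a) i) ∨
          y ∈ cyl y' (laxis S.u S.L (S.child x q R a) y' i)
            (llen S.u S.L (S.child x q R a) y' i / 64) (1 * lrad (S.child x q R a) i))) →
    ∑ i ∈ Finset.range N, ∑ y ∈ sel i, leps S.u S.L (S.child x q R a) y i ^ 2 *
      llen S.u S.L (S.child x q R a) y i ≤ S.C * ((a / R) ^ 2) ^ 2 * R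

variable {S}

lemma FlatIn.mono_set {u : E → ℝ} {U V : Set E} {L : ℝ} {x q : E} {R a : ℝ}
    (h : FlatIn u U L x q R a) (hUV : U ⊆ V) : FlatIn u V L x q R a :=
  ⟨h.lo, h.hi, h.sub.trans hUV, h.osc⟩

lemma slim_of_le (hI : Inputs S) {R a : ℝ} (hR : 0 < R) (ha : 0 < a)
    (h : (a / R) ^ 2 ≤ S.ε₁) : S.L * a ≤ R := by
  have h1 : (S.L * a / R) ^ 2 ≤ 1 ^ 2 := by
    have := mul_le_mul_of_nonneg_right h (sq_nonneg S.L)
    calc (S.L * a / R) ^ 2 = (a / R) ^ 2 * S.L ^ 2 := by ring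
      _ ≤ S.ε₁ * S.L ^ 2 := this
      _ ≤ 1 ^ 2 := by simpa using hI.slim
  have hL : 0 ≤ S.L := by linarith [hI.L_big]
  have h2 := (pow_le_pow_iff_left₀ (by positivity) zero_le_one two_ne_zero).1 h1
  rwa [div_le_one hR] at h2

lemma Setting.ValTo.mono {r : Root E} {y : E} {n m : ℕ} (h : S.ValTo r y n) (hm : m ≤ n) :
    S.ValTo r y m := fun i hi => h i (hi.trans hm)

lemma slimTo (hI : Inputs S) {r : Root E} {y : E} (hr : RootAt S.u S.L r y) {n : ℕ}
    (h : ∀ i ≤ n, leps S.u S.L r y i ≤ S.ε₁) : Slim S.u S.L r y n :=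
  fun i hi => slim_of_le hI (llen_pos hr i) (lrad_pos hr i) (h i hi)

/-- Chains can be started at every point of the half core of a host cell. -/
lemma child_root (hI : Inputs S) {x q y : E} {R a : ℝ} (hH : S.Host x q R a)
    (hy : boxNorm (axisDir q) R a (y - x) ≤ 1 / 2) : RootAt S.u S.L (S.child x q R a) y := by
  have hR := hH.R_pos
  have ha := hH.a_pos
  have hL := hI.L_big
  rw [boxNorm, max_le_iff, div_le_iff₀ hR, div_le_iff₀ ha] at hy
  refine ⟨by linarith, by simp only [Setting.child]; linarith,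
    by simp only [Setting.child]; linarith, ?_⟩
  simp only [Setting.child]
  have h := hH.flat
  obtain ⟨c, hc⟩ := h.osc
  have h0 : FlatIn S.u (cyl x (axisDir q) R (S.L * a)) S.L x q R a :=
    ⟨h.lo, h.hi, subset_rfl, c, hc⟩
  refine h0.shift (by linarith) ?_ (le_of_eq (by ring))
  nlinarith

lemma child_subset_top {x q : E} {R a : ℝ} (hH : S.Host x q R a) :
    (S.child x q R a).U ⊆ S.top := hH.flat.sub

lemma leps_zero (x q y : E) (R a : ℝ) :
    leps S.u S.L (S.child x q R a) y 0 = 4 * (a / R) ^ 2 := by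
  simp only [leps, lrad, llen, lexp_zero, Setting.child, pow_zero, div_one]
  ring

lemma lgrad_zero (x q y : E) (R a : ℝ) : lgrad S.u S.L (S.child x q R a) y 0 = q := rfl

/-- A later cell of a chain lies in the inner part of an earlier one whose axis is within the
drift bound. -/
lemma inner_of_drift (hI : Inputs S) {x y ν ν' : E} {R a R' a' : ℝ} (hν : ‖ν‖ = 1) (hν' : ‖ν'‖ = 1)
    (hR : 0 < R) (ha : 0 < a) (hRR : R' ≤ R) (haa : a' ≤ a / 2)
    (hsl : S.L * a ≤ R) (hsl' : S.L * a' ≤ R') (hd : S.L * R' * ‖ν - ν'‖ ≤ 20 * a)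
    (hy : boxNorm ν R a (y - x) ≤ 1 / 2) :
    cyl y ν' (R' / 4) (S.L / 4 * a') ⊆ cyl x ν (5 / 8 * R) (1 / 4 * (S.L * a)) := by
  rintro z ⟨hz1, hz2⟩
  rw [boxNorm, max_le_iff, div_le_iff₀ hR, div_le_iff₀ ha] at hy
  have hL : (16384 : ℝ) ≤ S.L := hI.L_big
  have h1 := abs_inner_change (ν := ν') (μ := ν) (z - y)
  have h2 := norm_perpPart_change (ν := ν') hν (z - y)
  have hd' : R' * ‖ν - ν'‖ ≤ a := by
    refine le_of_mul_le_mul_left ?_ (by linarith : (0 : ℝ) < S.L)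
    nlinarith
  have hzy : ‖z - y‖ ≤ R' / 2 :=
    (norm_le_inner_add_perpPart hν' (z - y)).trans (by linarith)
  have haR : 16384 * a ≤ R := le_trans (mul_le_mul_of_nonneg_right hL ha.le) hsl
  have h3 : ‖ν - ν'‖ * ‖z - y‖ ≤ a := by nlinarith [norm_nonneg (ν - ν'), norm_nonneg (z - y)]
  have h4 : |⟪ν', z - y⟫| * ‖ν - ν'‖ ≤ a := by
    nlinarith [norm_nonneg (ν - ν'), abs_nonneg ⟪ν', z - y⟫]
  have hzx : z - x = (z - y) + (y - x) := by abel
  have hla : S.L / 4 * a' ≤ S.L * a / 8 := by nlinarith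
  constructor
  · rw [hzx, inner_add_right]
    linarith [abs_add_le ⟪ν, z - y⟫ ⟪ν, y - x⟫]
  · rw [hzx, perpPart_add]
    refine (norm_add_le _ _).trans ?_
    nlinarith

end

end Vale.Agent.P080C1.Cells
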