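import Vale.Agent.P080C1.Props
import Vale.Agent.P080C1.Cells.Setting

/-!
# Interfaces between the frozen statements and the cell argument

`modelSetting` is the setting attached to a flat model; the four `...CellsProp` say that its
inputs follow from the frozen statements.
-/

namespace Vale.Agent.P080C1.Cells

open Filter Topology
open scoped RealInnerProductSpace

noncomputable section

/-- A flat model, four times as wide as the cells. -/
structure TopOK (L ε₀ : ℝ) (O : Set E3) (e₀ : E3) (u : E3 → ℝ) (v : ℕ → E3 → ℝ) (κ : ℕ → ℝ)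
    (lam : ℝ) : Prop where
  model : IsModel O e₀ u v κ
  dir : 7 / 8 ≤ e₀ 2
  lam_pos : 0 < lam
  lam_le : lam ≤ ε₀
  sub : cyl₀ 1 (4 * L * √lam) ⊆ O
  flat : FlatOn u (cyl₀ 1 (4 * L * √lam)) (ee 2) lam

/-- The set which contains all cells. -/
def topSet (L lam : ℝ) : Set E3 := cyl₀ (1 / 2) (2 * L * √lam)

/-- A chain cell is bad if, eventually, the gradient norms of the approximants have second
differences above the threshold on its test cylinder. -/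
def badLevel (u : E3 → ℝ) (v : ℕ → E3 → ℝ) (L δ : ℝ) (r : Root E3) (y : E3) (i : ℕ) : Prop :=
  ∀ᶠ n in atTop, δ * leps u L r y i ^ 2 * llen u L r y i <
    testQ (rnorm (v n))
      (P080C1.cyl y (lgrad u L r y i) (llen u L r y i / 64)
        (1 / 8192 * (L / 2 * (lrad r i / √‖lgrad u L r y i‖))))
      (lrad r i / √‖lgrad u L r y i‖)

/-- The setting of a flat model. -/
def modelSetting (u : E3 → ℝ) (v : ℕ → E3 → ℝ) (L lam ε₁ C δ : ℝ) (m : ℕ) : Setting E3 where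
  u := u
  top := topSet L lam
  L := L
  η := ε₁
  ε₁ := ε₁
  C := C
  m := m
  bad := badLevel u v L δ

/-- Hosts of the setting do not depend on the last three constants. -/
def HostIn (u : E3 → ℝ) (L lam ε₁ : ℝ) (x q : E3) (R a : ℝ) : Prop :=
  (modelSetting u (fun _ => u) L lam ε₁ 0 0 0).Host x q R a

/-- Tilt bound, and the axes of all valid cells are near the third axis (from `QExactProp`). -/
def TiltCellsProp : Prop :=
  ∃ L₀ : ℝ, 0 < L₀ ∧ ∀ L : ℝ, L₀ ≤ L → ∃ C ε₀ : ℝ, 0 < C ∧ 0 < ε₀ ∧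
    ∀ (O : Set E3) (e₀ : E3) (u : E3 → ℝ) (v : ℕ → E3 → ℝ) (κ : ℕ → ℝ) (lam ε₁ : ℝ),
      0 < ε₁ → ε₁ ≤ ε₀ → TopOK L ε₁ O e₀ u v κ lam →
      ∀ (x q : E3) (R a : ℝ), HostIn u L lam ε₁ x q R a →
        ‖axisDir q - ee 2‖ ≤ 1 / 16 ∧ ‖q‖ ≤ 1 + C * ε₁ ∧
        ∀ (y q' : E3) (R' a' : ℝ), FlatIn u (topSet L lam) L y q' R' a' → 0 < R' → 0 < a' →
          (a' / R') ^ 2 ≤ ε₁ →
          cyl y (axisDir q') (R' / 4) (L / 4 * a')
            ⊆ cyl x (axisDir q) (5 / 8 * R) (1 / 4 * (L * a)) →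
          ‖axisDir q' - axisDir q‖ ^ 2
              ≤ C * (max (‖q‖ - ‖q'‖) 0 + (a / R) ^ 2 + (a' / R') ^ 2) ∧
            3 / 7 * (‖q‖ - ⟪axisDir q, q'⟫) ≤ ‖q‖ - ‖q'‖ + C * ((a / R) ^ 2 + (a' / R') ^ 2
              + a' / R' * ‖axisDir q' - axisDir q‖)

/-- The minimum principle on boxes (from `ComparisonProp`). -/
def MinpCellsProp : Prop :=
  ∀ (O : Set E3) (u : E3 → ℝ) (L lam ε₁ : ℝ), IsOpen O → IsInfHarmonicOn O u → 16384 ≤ L →
    ε₁ * L ^ 2 ≤ 1 → topSet L lam ⊆ O →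
    ∀ (x q : E3) (R a : ℝ), HostIn u L lam ε₁ x q R a → ∀ (h c : ℝ), 0 < h → h ≤ R / 4 →
      u (x + h • axisDir q) - u x < c * h → ∀ σ ∈ Set.Icc (1 / 4 : ℝ) (1 / 2),
        ∃ y, boxNorm (axisDir q) R a (y - x) = σ ∧ u (y + h • axisDir q) - u y < c * h

/-- Bad cells of pairwise unrelated chains carry no more energy than their host allows (from
`CaccioProp`, `DorronsoroProp`, `QLemmaProp`, `TiltCellsProp`). -/
def EnergyCellsProp : Prop :=
  ∃ L₀ : ℝ, 0 < L₀ ∧ ∀ L : ℝ, L₀ ≤ L → ∃ C ε₀ : ℝ, 0 < C ∧ 0 < ε₀ ∧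
    ∀ (O : Set E3) (e₀ : E3) (u : E3 → ℝ) (v : ℕ → E3 → ℝ) (κ : ℕ → ℝ)
      (lam ε₁ C' δ : ℝ) (m : ℕ), 0 < ε₁ → ε₁ ≤ ε₀ → 0 < δ → TopOK L ε₁ O e₀ u v κ lam →
      ∀ (x q : E3) (R a : ℝ), HostIn u L lam ε₁ x q R a →
      ∀ (N : ℕ) (sel : ℕ → Finset E3),
        let S := modelSetting u v L lam ε₁ C' δ m
        (∀ i < N, ∀ y ∈ sel i, boxNorm (axisDir q) R a (y - x) ≤ 1 / 2 ∧
          S.ValTo (S.child x q R a) y i ∧ S.bad (S.child x q R a) y i) →
        (∀ i < N, ∀ y ∈ sel i, ∀ y' ∈ sel i, y ≠ y' →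
          ¬ (y' ∈ cyl y (laxis u L (S.child x q R a) y i)
                (llen u L (S.child x q R a) y i / 64) (1 * lrad (S.child x q R a) i) ∨
              y ∈ cyl y' (laxis u L (S.child x q R a) y' i)
                (llen u L (S.child x q R a) y' i / 64) (1 * lrad (S.child x q R a) i))) →
        ∑ i ∈ Finset.range N, ∑ y ∈ sel i, leps u L (S.child x q R a) y i ^ 2 *
          llen u L (S.child x q R a) y i ≤ C / δ * ((a / R) ^ 2) ^ 2 * R

/-- A level which is not bad improves the flatness (from `DichotomyProp`, `TiltCellsProp`). -/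
def DichCellsProp : Prop :=
  ∃ L₀ : ℝ, 0 < L₀ ∧ ∀ L : ℝ, L₀ ≤ L → ∃ (m : ℕ) (δ ε₀ : ℝ), 0 < m ∧ 0 < δ ∧ 0 < ε₀ ∧
    ∀ (O : Set E3) (e₀ : E3) (u : E3 → ℝ) (v : ℕ → E3 → ℝ) (κ : ℕ → ℝ) (lam ε₁ C' : ℝ),
      0 < ε₁ → ε₁ ≤ ε₀ → TopOK L ε₁ O e₀ u v κ lam →
      ∀ (x q : E3) (R a : ℝ), HostIn u L lam ε₁ x q R a → ∀ (y : E3) (i : ℕ),
        let S := modelSetting u v L lam ε₁ C' δ m
        boxNorm (axisDir q) R a (y - x) ≤ 1 / 2 → S.ValTo (S.child x q R a) y i →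
        ¬ S.bad (S.child x q R a) y i →
        leps u L (S.child x q R a) y (i + m) ≤ leps u L (S.child x q R a) y i / 4

end

end Vale.Agent.P080C1.Cells
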