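import Vale.Agent.P080C1.Cells.Chain

/-!
# Decay after a good level and summation of flatness along a chain
-/

namespace Vale.Agent.P080C1.Cells

open scoped RealInnerProductSpace

noncomputable section

/-- If the flatness drops by four `m` levels after every good level and grows by at most four per
level, then its sum is controlled by the first term and the bad terms. -/
lemma sum_le_bad {ε : ℕ → ℝ} {bad : ℕ → Prop} [DecidablePred bad] {m : ℕ}
    (hpos : ∀ i, 0 ≤ ε i) (hgrow : ∀ i, ε (i + 1) ≤ 4 * ε i) {n : ℕ}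
    (hgood : ∀ i, i + m < n → ¬ bad i → ε (i + m) ≤ ε i / 4) :
    ∑ i ∈ Finset.range n, ε i
      ≤ 2 * 4 ^ m * (ε 0 + ∑ i ∈ (Finset.range n).filter bad, ε i) := by
  have hpow : ∀ i k, ε (i + k) ≤ 4 ^ k * ε i := by
    intro i k
    induction k with
    | zero => simp
    | succ k ih =>
      calc ε (i + (k + 1)) ≤ 4 * ε (i + k) := hgrow _
        _ ≤ 4 * (4 ^ k * ε i) := by gcongr
        _ = 4 ^ (k + 1) * ε i := by ring
  set S := ∑ i ∈ Finset.range n, ε i with hS
  set B := ∑ i ∈ (Finset.range n).filter bad, ε i with hB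
  have hB0 : 0 ≤ B := Finset.sum_nonneg fun i _ => hpos i
  have hS0 : 0 ≤ S := Finset.sum_nonneg fun i _ => hpos i
  have hfirst : ∑ i ∈ Finset.range m, ε i ≤ 4 ^ m * ε 0 := by
    calc ∑ i ∈ Finset.range m, ε i ≤ ∑ i ∈ Finset.range m, 4 ^ i * ε 0 := by
          gcongr with i; simpa using hpow 0 i
      _ = (∑ i ∈ Finset.range m, (4 : ℝ) ^ i) * ε 0 := by rw [Finset.sum_mul]
      _ ≤ 4 ^ m * ε 0 := by
          refine mul_le_mul_of_nonneg_right ?_ (hpos 0)
          have h4 : ((∑ i ∈ Finset.range m, (4 : ℝ) ^ i) * (4 - 1)) = 4 ^ m - 1 :=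
            geom_sum_mul 4 m
          have : 0 ≤ ∑ i ∈ Finset.range m, (4 : ℝ) ^ i :=
            Finset.sum_nonneg fun i _ => by positivity
          linarith
  have hstep : ∀ i ∈ Finset.range (n - m),
      ε (i + m) ≤ ε i / 4 + (if bad i then 4 ^ m * ε i else 0) := by
    intro i hi
    rw [Finset.mem_range] at hi
    by_cases hb : bad i
    · rw [if_pos hb]; linarith [hpow i m, hpos i]
    · rw [if_neg hb, add_zero]; exact hgood i (by omega) hb
  have hsub : Finset.range (n - m) ⊆ Finset.range n :=
    Finset.range_subset_range.2 (Nat.sub_le _ _)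
  have hrest : ∑ i ∈ Finset.range (n - m), ε (i + m) ≤ S / 4 + 4 ^ m * B := by
    refine (Finset.sum_le_sum hstep).trans ?_
    rw [Finset.sum_add_distrib, ← Finset.sum_div, ← Finset.sum_filter, hS, hB, Finset.mul_sum]
    gcongr
    · exact fun i _ _ => hpos i
    · exact fun i _ _ => mul_nonneg (by positivity) (hpos i)
  have hsplit : S ≤ ∑ i ∈ Finset.range m, ε i + ∑ i ∈ Finset.range (n - m), ε (i + m) := by
    rcases le_total m n with h | h
    · have := Finset.sum_range_add ε m (n - m)
      rw [Nat.add_sub_cancel' h] at this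
      rw [hS, this]; simp [add_comm]
    · rw [hS]
      have : ∑ i ∈ Finset.range n, ε i ≤ ∑ i ∈ Finset.range m, ε i :=
        Finset.sum_le_sum_of_subset_of_nonneg (Finset.range_subset_range.2 h) fun i _ _ => hpos i
      simp only [Nat.sub_eq_zero_of_le h, Finset.range_zero, Finset.sum_empty, add_zero]
      exact this
  have h4m : (1 : ℝ) ≤ 4 ^ m := one_le_pow₀ (by norm_num)
  nlinarith [hpos 0]

/-- The first level where the flatness reaches a threshold lies `m` levels after a bad level
whose flatness is comparable with the threshold. -/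
lemma bad_before_spike {ε : ℕ → ℝ} {bad : ℕ → Prop} {m : ℕ} {θ : ℝ}
    (hgrow : ∀ i, ε (i + 1) ≤ 4 * ε i) {s : ℕ} (hm : 0 < m)
    (h0 : 4 ^ m * ε 0 < θ) (hs : θ ≤ ε s) (hbefore : ∀ i < s, ε i < θ)
    (hgood : ∀ i, i + m ≤ s → ¬ bad i → ε (i + m) ≤ ε i / 4) (hpos : ∀ i, 0 ≤ ε i) :
    ∃ i, i + m ≤ s ∧ bad i ∧ θ ≤ 4 ^ m * ε i := by
  have hpow : ∀ i k, ε (i + k) ≤ 4 ^ k * ε i := by
    intro i k
    induction k with
    | zero => simp
    | succ k ih =>
      calc ε (i + (k + 1)) ≤ 4 * ε (i + k) := hgrow _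
        _ ≤ 4 * (4 ^ k * ε i) := by gcongr
        _ = 4 ^ (k + 1) * ε i := by ring
  have hms : m ≤ s := by
    by_contra h
    have h1 : ε s ≤ 4 ^ s * ε 0 := by simpa using hpow 0 s
    have h2 : (4 : ℝ) ^ s ≤ 4 ^ m := pow_le_pow_right₀ (by norm_num) (by omega)
    nlinarith [hpos 0]
  have e : s - m + m = s := Nat.sub_add_cancel hms
  refine ⟨s - m, e.le, ?_, ?_⟩
  · by_contra hb
    have h1 := hgood (s - m) e.le hb
    rw [e] at h1
    linarith [hbefore (s - m) (by omega), hpos (s - m)]
  · have h1 := hpow (s - m) m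
    rw [e] at h1
    linarith

variable {E : Type*} [NormedAddCommGroup E] [InnerProductSpace ℝ E]
variable {u : E → ℝ} {L : ℝ} {r : Root E} {y : E}

/-- A flat subcell of length exponent `k_i + (m - 1)` at the levels `i + s`, `s₀ ≤ s ≤ m`, makes
the flatness drop by four after `m` levels. -/
lemma leps_decay (h : RootAt u L r y) {i m s₀ : ℕ} (hs₀ : 2 * s₀ + 1 ≤ m)
    (hcand : ∀ s, s₀ ≤ s → s ≤ m → Cand u L r y (i + s) (lexp u L r y i + (m - 1))) :
    leps u L r y (i + m) ≤ leps u L r y i / 4 := by
  have hk : ∀ s, s ≤ m → lexp u L r y (i + s) ≤ lexp u L r y i + (m - 1) := by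
    intro s
    induction s with
    | zero => simp
    | succ s ih =>
      intro hs
      by_cases hle : s + 1 ≤ s₀
      · have h1 : ∀ t, lexp u L r y (i + t) ≤ lexp u L r y i + 2 * t := by
          intro t
          induction t with
          | zero => simp
          | succ t iht =>
            have := lexp_succ_le_add_two h (i + t)
            have e : i + (t + 1) = i + t + 1 := rfl
            rw [e]; omega
        have := h1 (s + 1)
        omega
      · exact (lexp_succ_le h (i + s) (hcand (s + 1) (by omega) hs)).trans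
          (max_le (ih (by omega)) le_rfl)
  have hk' := hk m le_rfl
  have hR := h.R_pos
  have hlen : llen u L r y i / 2 ^ (m - 1) ≤ llen u L r y (i + m) := by
    rw [llen, div_div, ← pow_add]
    exact div_le_div_of_nonneg_left hR.le (by positivity) (pow_le_pow_right₀ one_le_two hk')
  have ha := lrad_pos h i
  have hi := llen_pos h i
  have hrad : lrad r (i + m) = lrad r i / 2 ^ m := by
    simp only [lrad, pow_add]; ring
  have hmain : lrad r (i + m) / llen u L r y (i + m) ≤ (lrad r i / llen u L r y i) / 2 := by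
    calc lrad r (i + m) / llen u L r y (i + m)
        ≤ lrad r (i + m) / (llen u L r y i / 2 ^ (m - 1)) := by
          exact div_le_div_of_nonneg_left (lrad_pos h _).le (by positivity) hlen
      _ = (lrad r i / llen u L r y i) / 2 := by
          rw [hrad]
          have : (2 : ℝ) ^ m = 2 ^ (m - 1) * 2 := by
            rw [← pow_succ, Nat.sub_add_cancel (by omega)]
          rw [this]; field_simp
  have h0 : 0 ≤ lrad r (i + m) / llen u L r y (i + m) :=
    (div_pos (lrad_pos h _) (llen_pos h _)).le
  have := pow_le_pow_left₀ h0 hmain 2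
  simp only [leps]
  nlinarith

end

end Vale.Agent.P080C1.Cells
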