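import Vale.Agent.P080C1.Cells.Setting
import Vale.Agent.P080C1.Cells.Sums

/-!
# A low difference quotient forces bad levels in the chain through the point

If the difference quotient in the direction of the host axis at `y` lies `Δ / 4` below the slope
of the host, then either the flatness spikes or the gradient norm drops by a multiple of `Δ`
before the level whose radius matches the step; in both cases the bad levels before that carry a
sum of squared flatness of order `Δ ^ 2 / M`.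
-/

namespace Vale.Agent.P080C1.Cells

open scoped RealInnerProductSpace

noncomputable section

variable {E : Type} [NormedAddCommGroup E] [InnerProductSpace ℝ E] {S : Setting E}

/-- Threshold for the drop of the gradient norm. -/
def cst (C : ℝ) : ℝ := 1 / (32 * (C + 1))

/-- Weight of the last flatness in the pair inequality. -/
def Kst (C : ℝ) : ℝ := 256 * (C + 1) ^ 2

/-- Threshold for a spike of the flatness. -/
def gst (C : ℝ) : ℝ := cst C / (4 * Kst C)

/-- Ratio between the radius and the step times the tilt. -/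
def Ast (C : ℝ) : ℝ := 2 * C + 2

/-- Smallest admissible deficit in units of the host flatness. -/
def Mst (C : ℝ) (m : ℕ) : ℝ := (C + 2) * 4 ^ (m + 6) / gst C

/-- Constant in the lower bound for the bad levels. -/
def kst (C : ℝ) (m : ℕ) : ℝ := gst C ^ 2 * cst C ^ 2 / (640 * 16 ^ m)

lemma cst_pos {C : ℝ} (hC : 0 < C) : 0 < cst C := by unfold cst; positivity

lemma gst_pos {C : ℝ} (hC : 0 < C) : 0 < gst C := by
  unfold gst cst Kst; positivity

lemma kst_pos {C : ℝ} (hC : 0 < C) (m : ℕ) : 0 < kst C m := by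
  unfold kst gst cst Kst; positivity

lemma cst_le {C : ℝ} (hC : 0 < C) : cst C ≤ 1 / 32 ∧ C * cst C ≤ 1 / 32 := by
  constructor <;> rw [cst]
  · gcongr; linarith
  · rw [mul_one_div, div_le_iff₀ (by positivity)]; linarith

lemma gst_eq {C : ℝ} (hC : 0 < C) : gst C = 1 / (32768 * (C + 1) ^ 3) := by
  have : C + 1 ≠ 0 := by positivity
  rw [gst, cst, Kst]; field_simp; ring

lemma gst_le {C : ℝ} (hC : 0 < C) : gst C ≤ cst C / 1000 ∧ C * gst C ≤ 1 / 1000 ∧
    2 * Ast C * Real.sqrt (gst C) ≤ 1 / 20 := by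
  have h1 : 1 ≤ C + 1 := by linarith
  refine ⟨?_, ?_, ?_⟩
  · rw [gst]
    refine div_le_div_of_nonneg_left (cst_pos hC).le (by norm_num) ?_
    rw [Kst]; nlinarith
  · rw [gst_eq hC, mul_one_div, div_le_iff₀ (by positivity)]
    nlinarith [pow_le_pow_right₀ h1 (show 1 ≤ 3 by norm_num)]
  · have h2 : (2 * Ast C * Real.sqrt (gst C)) ^ 2 ≤ (1 / 20) ^ 2 := by
      rw [mul_pow, Real.sq_sqrt (gst_pos hC).le, gst_eq hC, Ast, mul_one_div,
        div_le_iff₀ (by positivity)]
      nlinarith [pow_le_pow_right₀ h1 (show 2 ≤ 3 by norm_num)]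
    exact (pow_le_pow_iff_left₀ (by unfold Ast; positivity) (by norm_num) two_ne_zero).1 h2

lemma sqrt_leps {r : Root E} {y : E} (hr : RootAt S.u S.L r y) (i : ℕ) :
    Real.sqrt (leps S.u S.L r y i) = lrad r i / llen S.u S.L r y i :=
  Real.sqrt_sq (div_pos (lrad_pos hr i) (llen_pos hr i)).le

/-- The norm of the gradient drops by at most twenty times the sum of the flatness. -/
lemma norm_drop_le {u : E → ℝ} {L : ℝ} {r : Root E} {y : E} (hr : RootAt u L r y) :
    ∀ n, Slim u L r y n →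
      ‖r.q‖ - ‖lgrad u L r y n‖ ≤ 20 * ∑ k ∈ Finset.range n, leps u L r y k
  | 0, _ => by simp [lgrad, chain]
  | n + 1, hs => by
    have h1 := norm_drop_le hr n (hs.mono (Nat.le_succ n))
    have h2 := abs_le.1 (abs_norm_step hr (i := n) (hs (n + 1) le_rfl))
    have h3 := leps_succ_le hr n
    rw [Finset.sum_range_succ]
    linarith

/-- Tilt of a valid chain cell against the host, and the drop of its gradient. -/
lemma chain_tilt (hI : Inputs S) {x q y : E} {R a : ℝ} (hH : S.Host x q R a)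
    (hy : boxNorm (axisDir q) R a (y - x) ≤ 1 / 2) {n : ℕ}
    (hv : S.ValTo (S.child x q R a) y n) :
    ‖laxis S.u S.L (S.child x q R a) y n - axisDir q‖ ^ 2
        ≤ S.C * (max (‖q‖ - ‖lgrad S.u S.L (S.child x q R a) y n‖) 0 + (a / R) ^ 2
          + leps S.u S.L (S.child x q R a) y n) ∧
      3 / 7 * (‖q‖ - ⟪axisDir q, lgrad S.u S.L (S.child x q R a) y n⟫)
        ≤ ‖q‖ - ‖lgrad S.u S.L (S.child x q R a) y n‖ + S.C * ((a / R) ^ 2
          + leps S.u S.L (S.child x q R a) y n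
          + lrad (S.child x q R a) n / llen S.u S.L (S.child x q R a) y n
            * ‖laxis S.u S.L (S.child x q R a) y n - axisDir q‖) := by
  set r := S.child x q R a with hrdef
  have hr : RootAt S.u S.L r y := child_root hI hH hy
  have hR := hH.R_pos
  have ha := hH.a_pos
  have hsl : Slim S.u S.L r y n := slimTo hI hr fun i hi => (hv i hi).1
  have hd := axis_drift hr (Nat.zero_le n) hsl
  have hax0 : laxis S.u S.L r y 0 = axisDir q := rfl
  rw [hax0] at hd
  have h0 : lrad r 0 = a / 2 := by simp [lrad, hrdef, Setting.child]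
  have hn0 := lrad_pos hr n
  have hlen : llen S.u S.L r y n ≤ R := by
    refine (llen_anti hr (Nat.zero_le n)).trans ?_
    simp [llen, lexp_zero, hrdef, Setting.child]; linarith
  have hhalf : lrad r n ≤ a / 2 := by
    rw [← h0]
    exact div_le_div_of_nonneg_left hr.a_pos.le (by positivity)
      (pow_le_pow_right₀ one_le_two (Nat.zero_le n))
  have hcyl : cyl y (axisDir (lgrad S.u S.L r y n)) (llen S.u S.L r y n / 4)
      (S.L / 4 * lrad r n) ⊆ cyl x (axisDir q) (5 / 8 * R) (1 / 4 * (S.L * a)) := by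
    refine inner_of_drift hI hH.flat.unit (laxis_unit hr n) hR ha hlen hhalf
      (slim_of_le hI hR ha hH.eps_le) (hsl n le_rfl) ?_ hy
    rw [norm_sub_rev, h0] at hd
    simp only [laxis] at hd
    linarith
  exact hI.tilt hH ((chain_spec hr n).mono_set (child_subset_top hH)) (llen_pos hr n) hn0
    (hv n le_rfl).1 hcyl

/-- A level without spike and without drop. -/
def Calm (S : Setting E) (r : Root E) (y : E) (Δ : ℝ) (i : ℕ) : Prop :=
  leps S.u S.L r y i < gst S.C * Δ ∧ ‖r.q‖ - ‖lgrad S.u S.L r y i‖ < cst S.C * Δ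

/-- Numerical consequences of a large deficit. -/
structure Small (S : Setting E) (es Δ : ℝ) : Prop where
  pos : 0 < Δ
  esC : S.C * es ≤ gst S.C * Δ
  esM : 4096 * (4 ^ S.m * es) ≤ gst S.C * Δ
  valid : gst S.C * Δ ≤ S.ε₁

lemma small_of_deficit (hI : Inputs S) {es Δ : ℝ} (hes : 0 < es)
    (hΔ : Mst S.C S.m * es ≤ Δ) (hΔη : Δ ≤ (S.C + 2) * S.η) : Small S es Δ := by
  have hC := hI.C_pos
  have hg0 := gst_pos hC
  have hM0 : (S.C + 2) * 4 ^ (S.m + 6) * es ≤ gst S.C * Δ := by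
    have h1 := mul_le_mul_of_nonneg_left hΔ hg0.le
    rwa [← mul_assoc, Mst, mul_div_cancel₀ _ hg0.ne'] at h1
  have h4096 : (S.C + 2) * 4 ^ (S.m + 6) = 4096 * (S.C + 2) * 4 ^ S.m := by rw [pow_add]; ring
  rw [h4096] at hM0
  have hp : 0 < (4 : ℝ) ^ S.m * es := by positivity
  have h1 : 4096 * (4 ^ S.m * es) ≤ gst S.C * Δ := by nlinarith
  have hpos : 0 < Δ := by
    by_contra hn
    push Not at hn
    nlinarith
  refine ⟨hpos, ?_, h1, ?_⟩
  · have : (1 : ℝ) ≤ 4 ^ S.m := one_le_pow₀ (by norm_num)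
    have h2 : S.C * es ≤ (S.C + 2) * 4 ^ S.m * es := by
      refine mul_le_mul_of_nonneg_right ?_ hes.le
      nlinarith
    nlinarith
  · have h2 : gst S.C * (S.C + 2) ≤ 1 := by
      have h3 := (gst_le hC).1
      have h4 := (gst_le hC).2.1
      linarith [(cst_le hC).1]
    calc gst S.C * Δ ≤ gst S.C * ((S.C + 2) * S.η) := mul_le_mul_of_nonneg_left hΔη hg0.le
      _ ≤ gst S.C * ((S.C + 2) * S.ε₁) := by gcongr; exact hI.eta_le
      _ = gst S.C * (S.C + 2) * S.ε₁ := by ring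
      _ ≤ 1 * S.ε₁ := mul_le_mul_of_nonneg_right h2 hI.eps_pos.le
      _ = S.ε₁ := one_mul _

section

variable {x q y : E} {R a Δ : ℝ}

lemma calm_valid (hsm : Small S ((a / R) ^ 2) Δ) (hlow : 1 - S.η ≤ ‖q‖ - Δ)
    (hC : 0 < S.C) {i : ℕ} (h : Calm S (S.child x q R a) y Δ i) :
    S.Val (S.child x q R a) y i := by
  refine ⟨h.1.le.trans hsm.valid, ?_⟩
  have h2 := h.2
  simp only [Setting.child] at h2 ⊢
  have : cst S.C * Δ ≤ 1 * Δ :=
    mul_le_mul_of_nonneg_right (by linarith [(cst_le hC).1]) hsm.pos.le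
  linarith

lemma calm_tilt (hI : Inputs S) (hH : S.Host x q R a)
    (hy : boxNorm (axisDir q) R a (y - x) ≤ 1 / 2) (hsm : Small S ((a / R) ^ 2) Δ) {i : ℕ}
    (hv : S.ValTo (S.child x q R a) y i) (h : Calm S (S.child x q R a) y Δ i) :
    ‖laxis S.u S.L (S.child x q R a) y i - axisDir q‖ ≤ Real.sqrt Δ := by
  have hC := hI.C_pos
  have ht := (chain_tilt hI hH hy hv).1
  obtain ⟨h1, h2⟩ := h
  have hq : (S.child x q R a).q = q := rfl
  rw [hq] at h2
  have hm : max (‖q‖ - ‖lgrad S.u S.L (S.child x q R a) y i‖) 0 ≤ cst S.C * Δ :=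
    max_le h2.le (mul_nonneg (cst_pos hC).le hsm.pos.le)
  have e1 : S.C * max (‖q‖ - ‖lgrad S.u S.L (S.child x q R a) y i‖) 0 ≤ Δ / 32 := by
    refine (mul_le_mul_of_nonneg_left hm hC.le).trans ?_
    rw [← mul_assoc, div_eq_inv_mul]
    exact mul_le_mul_of_nonneg_right (by linarith [(cst_le hC).2]) hsm.pos.le
  have e2 : S.C * (a / R) ^ 2 ≤ Δ / 32 := by
    refine hsm.esC.trans ?_
    rw [div_eq_inv_mul]
    exact mul_le_mul_of_nonneg_right (by linarith [(gst_le hC).1, (cst_le hC).1]) hsm.pos.le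
  have e3 : S.C * leps S.u S.L (S.child x q R a) y i ≤ Δ / 32 := by
    refine (mul_le_mul_of_nonneg_left h1.le hC.le).trans ?_
    rw [← mul_assoc, div_eq_inv_mul]
    exact mul_le_mul_of_nonneg_right (by linarith [(gst_le hC).2.1]) hsm.pos.le
  refine Real.le_sqrt_of_sq_le ?_
  rw [mul_add, mul_add] at ht
  linarith [hsm.pos]

/-- The difference quotient is not low if every level up to the matching one is calm. -/
lemma not_all_calm (hI : Inputs S) (hH : S.Host x q R a)
    (hy : boxNorm (axisDir q) R a (y - x) ≤ 1 / 2) (hsm : Small S ((a / R) ^ 2) Δ)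
    (hlow : 1 - S.η ≤ ‖q‖ - Δ) {N : ℕ} {h : ℝ} (h0 : 0 < h)
    (hhN : lrad (S.child x q R a) N ≤ Ast S.C * h * Real.sqrt Δ)
    (hhN' : Ast S.C * h * Real.sqrt Δ ≤ 2 * lrad (S.child x q R a) N)
    (hD : S.u (y + h • axisDir q) - S.u y ≤ (‖q‖ - Δ / 4) * h) :
    ∃ i ≤ N, ¬ Calm S (S.child x q R a) y Δ i := by
  by_contra hno
  push Not at hno
  have hC := hI.C_pos
  set r := S.child x q R a with hrdef
  have hr : RootAt S.u S.L r y := child_root hI hH hy
  have hv : S.ValTo r y N := fun i hi => calm_valid hsm hlow hC (hno i hi)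
  have hθ := calm_tilt hI hH hy hsm hv (hno N le_rfl)
  have h3 := (chain_tilt hI hH hy hv).2
  obtain ⟨heN, hdN⟩ := hno N le_rfl
  have hrq : r.q = q := rfl
  rw [hrq] at hdN
  set θ := ‖laxis S.u S.L r y N - axisDir q‖ with hθdef
  have hθ0 : 0 ≤ θ := norm_nonneg _
  have hΔ0 := hsm.pos
  have hsd : 0 < Real.sqrt Δ := Real.sqrt_pos.2 hΔ0
  have hA : 2 ≤ Ast S.C := by unfold Ast; linarith
  have hRN := llen_pos hr N
  have haN := lrad_pos hr N
  set aN := lrad r N with haNdef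
  set RN := llen S.u S.L r y N with hRNdef
  set ν := axisDir q with hνdef
  have hunit : ‖ν‖ = 1 := hH.flat.unit
  have hhaN : h * Real.sqrt Δ ≤ aN := by
    have : 2 * (h * Real.sqrt Δ) ≤ 2 * aN := by
      refine le_trans ?_ hhN'
      rw [mul_assoc]
      exact mul_le_mul_of_nonneg_right hA (by positivity)
    linarith
  set w := Real.sqrt (gst S.C) with hwdef
  have hw0 : 0 ≤ w := Real.sqrt_nonneg _
  have hq : aN ≤ w * Real.sqrt Δ * RN := by
    have : aN / RN ≤ Real.sqrt (gst S.C * Δ) := by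
      rw [← sqrt_leps hr N]; exact Real.sqrt_le_sqrt heN.le
    rwa [div_le_iff₀ hRN, Real.sqrt_mul (gst_pos hC).le] at this
  have hAw := (gst_le hC).2.2
  have hw1 : w ≤ 1 / 80 := by
    have : 2 * 2 * w ≤ 2 * Ast S.C * w := by gcongr
    linarith
  have hCw : S.C * w ≤ 1 / 80 := by
    rw [Ast] at hAw
    have : 4 * (S.C * w) ≤ 2 * (2 * S.C + 2) * w := by nlinarith
    linarith
  have hhR : h ≤ RN := by
    refine le_of_mul_le_mul_right ?_ hsd
    refine hhaN.trans (hq.trans ?_)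
    rw [mul_comm RN]
    exact mul_le_mul_of_nonneg_right (mul_le_of_le_one_left hsd.le (by linarith)) hRN.le
  have hmem : y + h • ν ∈ cyl y (laxis S.u S.L r y N) RN (S.L * aN) := by
    rw [cyl, Set.mem_ofPred_eq, add_sub_cancel_left]
    constructor
    · refine (abs_inner_le_of_unit (laxis_unit hr N) _).trans ?_
      rw [norm_smul, hunit, Real.norm_eq_abs, abs_of_pos h0, mul_one]; exact hhR
    · rw [perpPart_smul, norm_smul, Real.norm_eq_abs, abs_of_pos h0]
      have h1 : ‖perpPart (laxis S.u S.L r y N) ν‖ ≤ θ := by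
        have := norm_perpPart_change (ν := ν) (laxis_unit hr N) ν
        simpa [perpPart_self hunit, hunit] using this
      calc h * ‖perpPart (laxis S.u S.L r y N) ν‖ ≤ h * Real.sqrt Δ := by
            gcongr; exact h1.trans hθ
        _ ≤ aN := hhaN
        _ ≤ S.L * aN := le_mul_of_one_le_left haN.le (by linarith [hI.L_big])
  have hy0 : y ∈ cyl y (laxis S.u S.L r y N) RN (S.L * aN) :=
    self_mem_cyl hRN.le (mul_nonneg (by linarith [hI.L_big]) haN.le)
  obtain ⟨c₀, hc₀⟩ := (chain_spec hr N).osc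
  have e1 := (abs_le.1 (hc₀ _ hmem)).1
  have e2 := (abs_le.1 (hc₀ _ hy0)).2
  simp only [add_sub_cancel_left, sub_self, inner_zero_right, inner_smul_right] at e1 e2
  rw [real_inner_comm] at e1
  rw [← haNdef, ← hRNdef] at e1 e2
  have herr : 2 * (aN ^ 2 / RN) ≤ Δ / 20 * h := by
    have h1 : aN ^ 2 / RN ≤ w * Real.sqrt Δ * aN := by
      rw [div_le_iff₀ hRN, sq]
      calc aN * aN ≤ aN * (w * Real.sqrt Δ * RN) := by gcongr
        _ = _ := by ring
    have h2 : w * Real.sqrt Δ * aN ≤ w * Real.sqrt Δ * (Ast S.C * h * Real.sqrt Δ) := by gcongr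
    have h4 : w * Real.sqrt Δ * (Ast S.C * h * Real.sqrt Δ) = Ast S.C * w * (Δ * h) := by
      linear_combination (w * Ast S.C * h) * (Real.mul_self_sqrt hΔ0.le)
    have h5 : 2 * Ast S.C * w * (Δ * h) ≤ 1 / 20 * (Δ * h) :=
      mul_le_mul_of_nonneg_right hAw (by positivity)
    linarith
  set t := ⟪ν, lgrad S.u S.L r y N⟫ with htdef
  have htle : t ≤ ‖q‖ - Δ / 5 := by
    refine le_of_mul_le_mul_right ?_ h0
    linarith
  have hlast : S.C * (aN / RN * θ) ≤ Δ / 80 := by
    have h1 : aN / RN * θ ≤ w * Real.sqrt Δ * Real.sqrt Δ := by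
      gcongr
      rw [div_le_iff₀ hRN]; exact hq
    rw [mul_assoc, Real.mul_self_sqrt hΔ0.le] at h1
    refine (mul_le_mul_of_nonneg_left h1 hC.le).trans ?_
    rw [← mul_assoc, div_eq_inv_mul]
    exact mul_le_mul_of_nonneg_right (by linarith) hΔ0.le
  have h6 : S.C * leps S.u S.L r y N ≤ Δ / 1000 := by
    refine (mul_le_mul_of_nonneg_left heN.le hC.le).trans ?_
    rw [← mul_assoc, div_eq_inv_mul]
    exact mul_le_mul_of_nonneg_right (by linarith [(gst_le hC).2.1]) hΔ0.le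
  have h7 : S.C * (a / R) ^ 2 ≤ Δ / 1000 := by
    refine hsm.esC.trans ?_
    rw [div_eq_inv_mul]
    exact mul_le_mul_of_nonneg_right (by linarith [(gst_le hC).1, (cst_le hC).1]) hΔ0.le
  have h8 : cst S.C * Δ ≤ 1 / 32 * Δ := mul_le_mul_of_nonneg_right (cst_le hC).1 hΔ0.le
  rw [mul_add, mul_add] at h3
  linarith

/-- A spike comes `m` levels after a bad level. -/
lemma spike_case (hI : Inputs S) (hH : S.Host x q R a)
    (hy : boxNorm (axisDir q) R a (y - x) ≤ 1 / 2) (hsm : Small S ((a / R) ^ 2) Δ) {F : ℕ}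
    {M : ℝ} (hM : 1 ≤ M) (hval : ∀ i < F, S.ValTo (S.child x q R a) y i)
    (hbefore : ∀ i < F, Calm S (S.child x q R a) y Δ i)
    (hspike : gst S.C * Δ ≤ leps S.u S.L (S.child x q R a) y F) :
    ∃ i < F, S.bad (S.child x q R a) y i ∧
      kst S.C S.m * Δ ^ 2 / M ≤ leps S.u S.L (S.child x q R a) y i ^ 2 := by
  have hC := hI.C_pos
  have hg0 := gst_pos hC
  have hc0 := cst_pos hC
  have hr : RootAt S.u S.L (S.child x q R a) y := child_root hI hH hy
  obtain ⟨i, hi1, hi2, hi3⟩ := bad_before_spike (bad := S.bad (S.child x q R a) y)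
    (θ := gst S.C * Δ) (fun i => leps_succ_le hr i) hI.m_pos
    (by
      rw [leps_zero]
      have := hsm.esM
      have : 0 < gst S.C * Δ := mul_pos hg0 hsm.pos
      linarith)
    hspike (fun i hi => (hbefore i hi).1)
    (fun i hi hb => hI.dich hH hy (hval i (by have := hI.m_pos; omega)) hb)
    (fun i => sq_nonneg _)
  refine ⟨i, by have := hI.m_pos; omega, hi2, ?_⟩
  refine (div_le_self (mul_nonneg (kst_pos hC _).le (sq_nonneg _)) hM).trans ?_
  have h16 : (16 : ℝ) ^ S.m = (4 ^ S.m) ^ 2 := by rw [← pow_mul, mul_comm, pow_mul]; norm_num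
  have h2 := pow_le_pow_left₀ (mul_nonneg hg0.le hsm.pos.le) hi3 2
  have hc' : cst S.C ^ 2 / 640 ≤ 1 := by
    have : cst S.C ^ 2 ≤ 1 := pow_le_one₀ hc0.le (by linarith [(cst_le hC).1])
    linarith
  calc kst S.C S.m * Δ ^ 2 = (cst S.C ^ 2 / 640) * ((gst S.C * Δ) ^ 2 / 16 ^ S.m) := by
        rw [kst]; field_simp
    _ ≤ 1 * ((gst S.C * Δ) ^ 2 / 16 ^ S.m) := mul_le_mul_of_nonneg_right hc' (by positivity)
    _ ≤ leps S.u S.L (S.child x q R a) y i ^ 2 := by
        rw [one_mul, div_le_iff₀ (by positivity), h16]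
        rw [mul_pow ((4 : ℝ) ^ S.m)] at h2
        linarith

/-- A drop of the norm needs bad levels. -/
lemma drop_case (hI : Inputs S) (hH : S.Host x q R a)
    (hy : boxNorm (axisDir q) R a (y - x) ≤ 1 / 2) (hsm : Small S ((a / R) ^ 2) Δ)
    (hlow : 1 - S.η ≤ ‖q‖ - Δ) {F : ℕ} {M : ℝ} (hM : 1 ≤ M)
    (hval : ∀ i < F, S.ValTo (S.child x q R a) y i)
    (hbefore : ∀ i < F, Calm S (S.child x q R a) y Δ i)
    (hspike : leps S.u S.L (S.child x q R a) y F < gst S.C * Δ)
    (hdF : cst S.C * Δ ≤ ‖q‖ - ‖lgrad S.u S.L (S.child x q R a) y F‖)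
    (hpair : ∀ i ≤ F, S.ValTo (S.child x q R a) y F →
      ‖lgrad S.u S.L (S.child x q R a) y i‖ - ‖lgrad S.u S.L (S.child x q R a) y F‖
        ≤ M * leps S.u S.L (S.child x q R a) y i
          + Kst S.C * leps S.u S.L (S.child x q R a) y F) :
    ∃ T : Finset ℕ, (∀ i ∈ T, i < F ∧ S.bad (S.child x q R a) y i) ∧
      kst S.C S.m * Δ ^ 2 / M ≤ ∑ i ∈ T, leps S.u S.L (S.child x q R a) y i ^ 2 := by
  classical
  have hC := hI.C_pos
  have hc0 := cst_pos hC
  have hg0 := gst_pos hC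
  have hΔ0 := hsm.pos
  set r := S.child x q R a with hrdef
  have hrq : r.q = q := rfl
  have hr : RootAt S.u S.L r y := child_root hI hH hy
  have hcΔ : 0 < cst S.C * Δ := mul_pos hc0 hΔ0
  obtain ⟨F₁, rfl⟩ : ∃ F₁, F = F₁ + 1 := by
    rcases Nat.eq_zero_or_pos F with h | h
    · subst h
      rw [hrdef, lgrad_zero] at hdF
      linarith
    · exact ⟨F - 1, by omega⟩
  have hslim : Slim S.u S.L r y (F₁ + 1) := by
    refine slimTo hI hr fun i hi => ?_
    rcases Nat.lt_or_ge i (F₁ + 1) with h | h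
    · exact (hbefore i h).1.le.trans hsm.valid
    · obtain rfl : i = F₁ + 1 := le_antisymm hi h
      exact hspike.le.trans hsm.valid
  have hvF : S.ValTo r y (F₁ + 1) := by
    intro i hi
    rcases Nat.lt_or_ge i (F₁ + 1) with h | h
    · exact hval i h i le_rfl
    · obtain rfl : i = F₁ + 1 := le_antisymm hi h
      refine ⟨hspike.le.trans hsm.valid, ?_⟩
      have h1 := abs_le.1 (abs_norm_step hr (i := F₁) (hslim (F₁ + 1) le_rfl))
      have h2 := (hbefore F₁ (Nat.lt_succ_self F₁)).2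
      rw [hrq] at h2
      have e1 : cst S.C * Δ ≤ 1 / 32 * Δ := mul_le_mul_of_nonneg_right (cst_le hC).1 hΔ0.le
      have e2 : gst S.C * Δ ≤ 1 / 100 * Δ :=
        mul_le_mul_of_nonneg_right (by linarith [(gst_le hC).1, (cst_le hC).1]) hΔ0.le
      linarith
  have hex1 : ∃ i, i ≤ F₁ + 1 ∧ cst S.C * Δ / 2 ≤ ‖q‖ - ‖lgrad S.u S.L r y i‖ :=
    ⟨F₁ + 1, le_rfl, by linarith⟩
  obtain ⟨hi₁, hd₁⟩ := Nat.find_spec hex1
  set i₁ := Nat.find hex1
  have hlt : ∀ i < i₁, ‖q‖ - ‖lgrad S.u S.L r y i‖ < cst S.C * Δ / 2 := fun i hi => by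
    by_contra hn
    exact Nat.find_min hex1 hi ⟨by omega, not_lt.1 hn⟩
  have hS : cst S.C * Δ / 40 ≤ ∑ k ∈ Finset.range i₁, leps S.u S.L r y k := by
    have h := norm_drop_le hr i₁ (hslim.mono hi₁)
    rw [hrq] at h
    linarith
  have hB := sum_le_bad (ε := fun i => leps S.u S.L r y i) (bad := S.bad r y) (m := S.m)
    (fun i => sq_nonneg _) (fun i => leps_succ_le hr i) (n := i₁)
    (fun i hi hb => hI.dich hH hy (hval i (by omega)) hb)
  set B := ∑ i ∈ (Finset.range i₁).filter (S.bad r y), leps S.u S.L r y i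
  have hBlow : cst S.C * Δ / (160 * 4 ^ S.m) ≤ B := by
    simp only [hrdef, leps_zero] at hB
    rw [← hrdef] at hB
    have h4 : (0 : ℝ) < 4 ^ S.m := by positivity
    have e1 : 2 * 4 ^ S.m * (4 * (a / R) ^ 2) ≤ cst S.C * Δ / 80 := by
      have := hsm.esM
      have e2 : gst S.C * Δ ≤ cst S.C / 1000 * Δ :=
        mul_le_mul_of_nonneg_right (gst_le hC).1 hΔ0.le
      linarith
    rw [div_le_iff₀ (by positivity)]
    rw [mul_add] at hB
    have : ∑ k ∈ Finset.range i₁, leps S.u S.L r y k ≤ cst S.C * Δ / 80 + 2 * 4 ^ S.m * B := by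
      linarith
    linarith
  refine ⟨(Finset.range i₁).filter (S.bad r y), fun i hi => ?_, ?_⟩
  · rw [Finset.mem_filter, Finset.mem_range] at hi
    exact ⟨by omega, hi.2⟩
  · have hK : Kst S.C * gst S.C = cst S.C / 4 := by
      have : Kst S.C ≠ 0 := by unfold Kst; positivity
      rw [gst]; field_simp
    have hlowe : ∀ i ∈ (Finset.range i₁).filter (S.bad r y),
        cst S.C * Δ / (4 * M) * leps S.u S.L r y i ≤ leps S.u S.L r y i ^ 2 := by
      intro i hi
      rw [Finset.mem_filter, Finset.mem_range] at hi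
      have h1 := hpair i (by omega) hvF
      have h2 := hlt i hi.1
      have h3 : Kst S.C * leps S.u S.L r y (F₁ + 1) ≤ cst S.C / 4 * Δ := by
        rw [← hK, mul_assoc]
        exact mul_le_mul_of_nonneg_left hspike.le (by unfold Kst; positivity)
      have h5 : cst S.C * Δ / (4 * M) ≤ leps S.u S.L r y i := by
        rw [div_le_iff₀ (by positivity)]; linarith
      rw [sq]; exact mul_le_mul_of_nonneg_right h5 (sq_nonneg _)
    refine le_trans ?_ (Finset.sum_le_sum hlowe)
    rw [← Finset.mul_sum]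
    refine le_trans ?_ (mul_le_mul_of_nonneg_left hBlow (by positivity))
    have hg : gst S.C ^ 2 * (4 : ℝ) ^ S.m ≤ (4 ^ S.m) ^ 2 := by
      rw [sq ((4 : ℝ) ^ S.m)]
      refine mul_le_mul_of_nonneg_right ?_ (by positivity)
      exact le_trans (pow_le_one₀ hg0.le (by linarith [(gst_le hC).1, (cst_le hC).1]))
        (one_le_pow₀ (by norm_num))
    have h16 : (16 : ℝ) ^ S.m = (4 ^ S.m) ^ 2 := by rw [← pow_mul, mul_comm, pow_mul]; norm_num
    have hM0 : M ≠ 0 := by positivity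
    calc kst S.C S.m * Δ ^ 2 / M
        = cst S.C * Δ / (4 * M) * (cst S.C * Δ / (160 * 4 ^ S.m))
            * (gst S.C ^ 2 * 4 ^ S.m / (4 ^ S.m) ^ 2) := by
          rw [kst, h16]; field_simp; ring
      _ ≤ cst S.C * Δ / (4 * M) * (cst S.C * Δ / (160 * 4 ^ S.m)) * 1 := by
          gcongr
          exact div_le_one_of_le₀ hg (by positivity)
      _ = _ := mul_one _

end

/-- The bad levels produced by a low difference quotient at `y`. -/
theorem exists_bad_levels (hI : Inputs S) {x q y : E} {R a : ℝ} (hH : S.Host x q R a)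
    (hy : boxNorm (axisDir q) R a (y - x) ≤ 1 / 2) {N : ℕ} {Δ M h : ℝ} (hM : 1 ≤ M)
    (hΔ : Mst S.C S.m * (a / R) ^ 2 ≤ Δ) (hΔη : Δ ≤ (S.C + 2) * S.η) (hlow : 1 - S.η ≤ ‖q‖ - Δ)
    (h0 : 0 < h) (hhN : lrad (S.child x q R a) N ≤ Ast S.C * h * Real.sqrt Δ)
    (hhN' : Ast S.C * h * Real.sqrt Δ ≤ 2 * lrad (S.child x q R a) N)
    (hD : S.u (y + h • axisDir q) - S.u y ≤ (‖q‖ - Δ / 4) * h)
    (hpair : ∀ i i', i ≤ i' → i' ≤ N → S.ValTo (S.child x q R a) y i' →
      ‖lgrad S.u S.L (S.child x q R a) y i‖ - ‖lgrad S.u S.L (S.child x q R a) y i'‖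
        ≤ M * leps S.u S.L (S.child x q R a) y i
          + Kst S.C * leps S.u S.L (S.child x q R a) y i') :
    ∃ T : Finset ℕ, (∀ i ∈ T, i < N ∧ S.ValTo (S.child x q R a) y i ∧
        S.bad (S.child x q R a) y i ∧ leps S.u S.L (S.child x q R a) y i ≤ Δ ∧
        ‖laxis S.u S.L (S.child x q R a) y i - axisDir q‖ ≤ Real.sqrt Δ) ∧
      kst S.C S.m * Δ ^ 2 / M ≤ ∑ i ∈ T, leps S.u S.L (S.child x q R a) y i ^ 2 := by
  classical
  have hC := hI.C_pos
  have hsm : Small S ((a / R) ^ 2) Δ :=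
    small_of_deficit hI (by have := hH.R_pos; have := hH.a_pos; positivity) hΔ hΔη
  have hex := not_all_calm hI hH hy hsm hlow h0 hhN hhN' hD
  obtain ⟨hFN, hF⟩ := Nat.find_spec hex
  set F := Nat.find hex
  have hbefore : ∀ i < F, Calm S (S.child x q R a) y Δ i := fun i hi => by
    by_contra hn
    exact Nat.find_min hex hi ⟨by omega, hn⟩
  have hval : ∀ i < F, S.ValTo (S.child x q R a) y i := fun i hi j hj =>
    calm_valid hsm hlow hC (hbefore j (by omega))
  have hprops : ∀ i < F, S.bad (S.child x q R a) y i →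
      i < N ∧ S.ValTo (S.child x q R a) y i ∧ S.bad (S.child x q R a) y i ∧
        leps S.u S.L (S.child x q R a) y i ≤ Δ ∧
        ‖laxis S.u S.L (S.child x q R a) y i - axisDir q‖ ≤ Real.sqrt Δ := fun i hi hb =>
    ⟨by omega, hval i hi, hb, (hbefore i hi).1.le.trans
      (mul_le_of_le_one_left hsm.pos.le (by linarith [(gst_le hC).1, (cst_le hC).1])),
      calm_tilt hI hH hy hsm (hval i hi) (hbefore i hi)⟩
  rcases le_or_gt (gst S.C * Δ) (leps S.u S.L (S.child x q R a) y F) with hs | hs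
  · obtain ⟨i, hi, hb, hle⟩ := spike_case hI hH hy hsm hM hval hbefore hs
    exact ⟨{i}, by simpa using hprops i hi hb, by simpa using hle⟩
  · have hdF : cst S.C * Δ ≤ ‖q‖ - ‖lgrad S.u S.L (S.child x q R a) y F‖ :=
      not_lt.1 fun hn => hF ⟨hs, hn⟩
    obtain ⟨T, hT, hle⟩ := drop_case hI hH hy hsm hlow hM hval hbefore hs hdF
      (fun i hi hv => hpair i F hi hFN hv)
    exact ⟨T, fun i hi => hprops i (hT i hi).1 (hT i hi).2, hle⟩

end

end Vale.Agent.P080C1.Cells
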