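import Vale.Agent.P080C1.Cells.Count

/-!
# The maximal ratio estimate and the lower bound for the slope along the axis

By induction on the length of the pair: along every chain, the norm of the gradient drops between
two levels by at most a multiple of the two flatnesses. The same counting then bounds difference
quotients along the axis of every host from below.
-/

namespace Vale.Agent.P080C1.Cells

open scoped RealInnerProductSpace

noncomputable section

variable {E : Type} [NormedAddCommGroup E] [InnerProductSpace ℝ E] {S : Setting E}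

/-- Constant of the pair inequality. -/
def Mpair (C : ℝ) (m : ℕ) : ℝ := max 1 (max (Mst C m) (C₁ C m ^ 2 + 1))

lemma boxNorm_zero (ν : E) (R a : ℝ) : boxNorm ν R a 0 = 0 := by
  simp [boxNorm, perpPart]

lemma one_le_Mst {C : ℝ} (hC : 0 < C) (m : ℕ) : 1 ≤ Mst C m := by
  rw [Mst, le_div_iff₀ (gst_pos hC), one_mul]
  have h1 : (1 : ℝ) ≤ 4 ^ (m + 6) := one_le_pow₀ (by norm_num)
  have h2 := (gst_le hC).1
  have h3 := (cst_le hC).1
  nlinarith

lemma ratio_contra {C : ℝ} {m : ℕ} (hC : 0 < C) {e Δ M : ℝ} (he0 : 0 < e) (hΔ0 : 0 < Δ)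
    (hlow : M * e ^ 2 < Δ) (hM1 : 1 ≤ M) (hMC : C₁ C m ^ 2 + 1 ≤ M)
    (hmain : Real.sqrt Δ ^ 3 ≤ C₁ C m * M * e ^ 3) : False := by
  have hC1 : 0 ≤ C₁ C m := by rw [C₁]; have := kst_pos hC m; positivity
  have hsq := pow_le_pow_left₀ (by positivity) hmain 2
  have ht2 : Real.sqrt Δ ^ 2 = Δ := Real.sq_sqrt hΔ0.le
  have h6 : (M * e ^ 2) ^ 3 < Δ ^ 3 := pow_lt_pow_left₀ hlow (by positivity) three_ne_zero
  have h7 : M ^ 3 * (e ^ 2) ^ 3 < C₁ C m ^ 2 * M ^ 2 * (e ^ 2) ^ 3 := by
    rw [← mul_pow]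
    calc _ < Δ ^ 3 := h6
      _ = (Real.sqrt Δ ^ 2) ^ 3 := by rw [ht2]
      _ = (Real.sqrt Δ ^ 3) ^ 2 := by ring
      _ ≤ (C₁ C m * M * e ^ 3) ^ 2 := hsq
      _ = _ := by ring
  have h8 : M ^ 3 < C₁ C m ^ 2 * M ^ 2 := lt_of_mul_lt_mul_right h7 (by positivity)
  have h9 : (C₁ C m ^ 2 + 1) * M ^ 2 ≤ M ^ 3 := by
    rw [pow_succ M 2, mul_comm _ M]; exact mul_le_mul_of_nonneg_right hMC (sq_nonneg M)
  nlinarith

/-- A drop between two levels forces a low difference quotient at the centre of the upper one. -/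
lemma low_of_drop (hI : Inputs S) {r : Root E} {x : E} (hr : RootAt S.u S.L r x)
    (hU : r.U ⊆ S.top) {j l : ℕ} (hjl : j < l) (hval : S.ValTo r x l) {Δ : ℝ}
    (hΔdef : Δ = ‖lgrad S.u S.L r x j‖ - ‖lgrad S.u S.L r x l‖) (hΔ0 : 0 < Δ)
    (hes : leps S.u S.L r x j ≤ Δ) (hel : Kst S.C * leps S.u S.L r x l ≤ Δ) :
    ∃ h : ℝ, 0 < h ∧ Ast S.C * h * Real.sqrt Δ = lrad r l ∧
      S.u (x + h • axisDir (lgrad S.u S.L r x j)) - S.u x
        < (‖lgrad S.u S.L r x j‖ - Δ / 4) * h := by
  have hC := hI.C_pos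
  have hK : 0 < Kst S.C := by unfold Kst; positivity
  set q := lgrad S.u S.L r x j with hqdef
  set q' := lgrad S.u S.L r x l with hq'def
  set R := llen S.u S.L r x j with hRdef
  set a := lrad r j with hadef
  set Rl := llen S.u S.L r x l with hRldef
  set al := lrad r l with haldef
  have hR : 0 < R := llen_pos hr j
  have ha : 0 < a := lrad_pos hr j
  have hRl : 0 < Rl := llen_pos hr _
  have hal : 0 < al := lrad_pos hr _
  have hlv := hval l le_rfl
  have hjv := hval j hjl.le
  have hH : S.Host x q R a :=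
    ⟨(chain_spec hr j).mono_set hU, hR, ha, hjv.1, hjv.2⟩
  have hsd : 0 < Real.sqrt Δ := Real.sqrt_pos.2 hΔ0
  have hA : 2 ≤ Ast S.C := by unfold Ast; linarith
  set h := al / (Ast S.C * Real.sqrt Δ) with hhdef
  have h0 : 0 < h := by positivity
  have hhal : Ast S.C * h * Real.sqrt Δ = al := by rw [hhdef]; field_simp
  have hleps : (al / Rl) ^ 2 ≤ Δ / Kst S.C := by
    rw [le_div_iff₀ hK]
    simp only [leps, ← hRldef, ← haldef] at hel
    linarith
  have hq : al / Rl ≤ Real.sqrt Δ / (16 * (S.C + 1)) := by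
    refine (pow_le_pow_iff_left₀ (by positivity) (by positivity) two_ne_zero).1 ?_
    rw [div_pow (Real.sqrt Δ), Real.sq_sqrt hΔ0.le]
    refine hleps.trans (le_of_eq ?_)
    rw [Kst]; ring
  -- the cell of the lower level lies in the inner part of the host
  have hslim : Slim S.u S.L r x l := slimTo hI hr fun i hi => (hval i hi).1
  have hd := axis_drift hr (hjl.le) hslim
  have hal2 : al ≤ a / 2 := by
    rw [hadef, haldef, ← lrad_succ]
    exact div_le_div_of_nonneg_left hr.a_pos.le (by positivity)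
      (pow_le_pow_right₀ one_le_two (by omega))
  have hcyl : cyl x (axisDir q') (Rl / 4) (S.L / 4 * al)
      ⊆ cyl x (axisDir q) (5 / 8 * R) (1 / 4 * (S.L * a)) := by
    refine inner_of_drift hI hH.flat.unit (laxis_unit hr _) hR ha
      (llen_anti hr hjl.le) hal2 (slim_of_le hI hR ha hH.eps_le) (hslim _ le_rfl)
      ?_ (by rw [sub_self, boxNorm_zero]; norm_num)
    rw [norm_sub_rev] at hd
    simp only [laxis, ← hqdef, ← hq'def, ← hRldef, ← hadef, ← haldef] at hd
    linarith
  obtain ⟨ht, -⟩ := hI.tilt hH ((chain_spec hr _).mono_set hU) hRl hal hlv.1 hcyl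
  set θ := ‖axisDir q' - axisDir q‖ with hθdef
  have hθ : θ ≤ Ast S.C * Real.sqrt Δ := by
    refine (pow_le_pow_iff_left₀ (norm_nonneg _) (by positivity) two_ne_zero).1 (ht.trans ?_)
    rw [mul_pow, Real.sq_sqrt hΔ0.le]
    have e1 : max (‖q‖ - ‖q'‖) 0 ≤ Δ := max_le hΔdef.ge hΔ0.le
    have e2 : (al / Rl) ^ 2 ≤ Δ := hleps.trans (div_le_self hΔ0.le (by unfold Kst; nlinarith))
    have e3 : (a / R) ^ 2 ≤ Δ := hes
    have e1' : ‖q‖ - ‖q'‖ ≤ Δ := hΔdef.ge
    calc S.C * (max (‖q‖ - ‖q'‖) 0 + (a / R) ^ 2 + (al / Rl) ^ 2) ≤ S.C * (Δ + Δ + Δ) := by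
          gcongr
      _ ≤ Ast S.C ^ 2 * Δ := by
          rw [Ast, show S.C * (Δ + Δ + Δ) = 3 * S.C * Δ by ring]
          gcongr; nlinarith
  have hunit : ‖axisDir q‖ = 1 := hH.flat.unit
  have hhR : h ≤ Rl := by
    rw [hhdef, div_le_iff₀ (by positivity)]
    rw [div_le_iff₀ hRl] at hq
    refine hq.trans ?_
    have h1 : Real.sqrt Δ / (16 * (S.C + 1)) ≤ Real.sqrt Δ := div_le_self hsd.le (by linarith)
    calc Real.sqrt Δ / (16 * (S.C + 1)) * Rl ≤ Real.sqrt Δ * Rl := by gcongr
      _ ≤ Rl * (Ast S.C * Real.sqrt Δ) := by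
        rw [mul_comm]; gcongr; exact le_mul_of_one_le_left hsd.le (by linarith)
  have hL0 : (16384 : ℝ) ≤ S.L := hI.L_big
  have hmem : x + h • axisDir q ∈ cyl x (axisDir q') Rl (S.L * al) := by
    rw [cyl, Set.mem_ofPred_eq, add_sub_cancel_left]
    constructor
    · refine (abs_inner_le_of_unit (norm_axisDir (chain_spec hr _).ne_zero) _).trans ?_
      rw [norm_smul, hunit, Real.norm_eq_abs, abs_of_pos h0, mul_one]; exact hhR
    · rw [perpPart_smul, norm_smul, Real.norm_eq_abs, abs_of_pos h0]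
      have h1 : ‖perpPart (axisDir q') (axisDir q)‖ ≤ θ := by
        have := norm_perpPart_change (ν := axisDir q)
          (norm_axisDir (chain_spec hr l).ne_zero) (axisDir q)
        simpa [perpPart_self hunit, hunit] using this
      calc h * ‖perpPart (axisDir q') (axisDir q)‖ ≤ h * (Ast S.C * Real.sqrt Δ) := by
            gcongr; exact h1.trans hθ
        _ = al := by rw [← hhal]; ring
        _ ≤ S.L * al := le_mul_of_one_le_left hal.le (by linarith)
  obtain ⟨c₀, hc₀⟩ := (chain_spec hr l).osc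
  rw [← hRldef, ← haldef] at hc₀
  have e1 := (abs_le.1 (hc₀ _ hmem)).2
  have e2 := (abs_le.1 (hc₀ x (self_mem_cyl hRl.le (mul_nonneg (by linarith) hal.le)))).1
  simp only [add_sub_cancel_left, sub_self, inner_zero_right, inner_smul_right] at e1 e2
  have herr : 2 * (al ^ 2 / Rl) ≤ Δ / 4 * h := by
    calc 2 * (al ^ 2 / Rl) = 2 * (al / Rl) * (Ast S.C * h * Real.sqrt Δ) := by rw [hhal]; ring
      _ ≤ 2 * (Real.sqrt Δ / (16 * (S.C + 1))) * (Ast S.C * h * Real.sqrt Δ) := by gcongr
      _ = Δ / 4 * h := by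
          rw [Ast]
          field_simp
          rw [Real.sq_sqrt hΔ0.le]
          ring
  have hin : ⟪q', axisDir q⟫ ≤ ‖q'‖ := by
    rw [real_inner_comm]; exact inner_le_norm_of_unit hunit _
  have hD : S.u (x + h • axisDir q) - S.u x < (‖q‖ - Δ / 4) * h := by
    have h1 : h * ⟪q', axisDir q⟫ ≤ h * ‖q'‖ := mul_le_mul_of_nonneg_left hin h0.le
    have h2 : 0 < Δ * h := mul_pos hΔ0 h0
    have h3 : Δ * h = (‖q‖ - ‖q'‖) * h := congrArg (· * h) hΔdef
    linarith
  exact ⟨h, h0, hhal, hD⟩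

/-- The pair inequality along every chain below the top set. -/
theorem pair_bound (hI : Inputs S) : ∀ (n : ℕ) (r : Root E) (x : E), RootAt S.u S.L r x →
    r.U ⊆ S.top → ∀ j, S.ValTo r x (j + n) →
    ‖lgrad S.u S.L r x j‖ - ‖lgrad S.u S.L r x (j + n)‖
      ≤ Mpair S.C S.m * leps S.u S.L r x j + Kst S.C * leps S.u S.L r x (j + n) := by
  intro n
  induction n using Nat.strong_induction_on with
  | _ n ih =>
  intro r x hr hU j hval
  have hC := hI.C_pos
  set M := Mpair S.C S.m with hMdef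
  have hM1 : 1 ≤ M := le_max_left _ _
  have hK : 0 < Kst S.C := by unfold Kst; positivity
  set q := lgrad S.u S.L r x j with hqdef
  set q' := lgrad S.u S.L r x (j + n) with hq'def
  have ej : 0 ≤ leps S.u S.L r x j := sq_nonneg _
  have el : 0 ≤ leps S.u S.L r x (j + n) := sq_nonneg _
  by_contra hviol
  push Not at hviol
  rcases Nat.eq_zero_or_pos n with hn | hn
  · subst hn
    simp only [Nat.add_zero] at hviol el hq'def
    rw [hq'def, ← hqdef] at hviol
    nlinarith
  obtain ⟨N, rfl⟩ : ∃ N, n = N + 1 := ⟨n - 1, by omega⟩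
  set R := llen S.u S.L r x j with hRdef
  set a := lrad r j with hadef
  set Rl := llen S.u S.L r x (j + (N + 1)) with hRldef
  set al := lrad r (j + (N + 1)) with haldef
  set Δ := ‖q‖ - ‖q'‖ with hΔdef
  have hR : 0 < R := llen_pos hr j
  have ha : 0 < a := lrad_pos hr j
  have hRl : 0 < Rl := llen_pos hr _
  have hal : 0 < al := lrad_pos hr _
  have hjv := hval j (Nat.le_add_right _ _)
  have hlv := hval (j + (N + 1)) le_rfl
  have hH : S.Host x q R a :=
    ⟨(chain_spec hr j).mono_set hU, hR, ha, hjv.1, hjv.2⟩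
  have hes : Mst S.C S.m * (a / R) ^ 2 ≤ Δ := by
    have h1 : Mst S.C S.m * leps S.u S.L r x j ≤ M * leps S.u S.L r x j :=
      mul_le_mul_of_nonneg_right ((le_max_left _ _).trans (le_max_right _ _)) ej
    have : 0 ≤ Kst S.C * leps S.u S.L r x (j + (N + 1)) := by positivity
    simp only [leps, ← hRdef, ← hadef] at h1 hviol this ej
    linarith
  have hΔη : Δ ≤ (S.C + 2) * S.η := by
    have h1 := hI.upper hH
    have h2 := hlv.2
    have h3 : 0 ≤ S.η := by
      by_contra hneg
      push Not at hneg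
      have := hjv.2
      have : S.C * S.η < 0 := mul_neg_of_pos_of_neg hC hneg
      linarith
    simp only [← hq'def] at h2
    linarith
  have hsm : Small S ((a / R) ^ 2) Δ := small_of_deficit hI (by positivity) hes hΔη
  have hΔ0 := hsm.pos
  have hsd : 0 < Real.sqrt Δ := Real.sqrt_pos.2 hΔ0
  have hA : 2 ≤ Ast S.C := by unfold Ast; linarith
  obtain ⟨h, h0, hhal, hD⟩ := low_of_drop hI hr hU (l := j + (N + 1)) (by omega) hval hΔdef hΔ0
    (by
      refine le_trans ?_ hes
      simp only [leps, ← hRdef, ← hadef]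
      refine le_mul_of_one_le_left (sq_nonneg _) (one_le_Mst hC _))
    (by
      have : 0 ≤ M * leps S.u S.L r x j := by positivity
      linarith)
  have hNl : lrad (S.child x q R a) N = al := by
    simp only [Setting.child, haldef, hadef, lrad, pow_add, pow_one]; field_simp
  have hmain := low_point_bound hI hH (N := N) hM1 hes hΔη (by have := hlv.2; linarith) h0
    (by rw [hNl, hhal]) (by rw [hNl, hhal]; linarith) hD
    (fun y hy i i' hii' hi'N hv => by
      have h := ih (i' - i) (by omega) (S.child x q R a) y (child_root hI hH hy)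
        (child_subset_top hH) i (by rwa [Nat.add_sub_cancel' hii'])
      rwa [Nat.add_sub_cancel' hii'] at h)
  have he0 : 0 < a / R := by positivity
  have hlow' : M * (a / R) ^ 2 < Δ := by
    have : 0 ≤ Kst S.C * leps S.u S.L r x (j + (N + 1)) := by positivity
    simp only [leps, ← hRdef, ← hadef] at hviol this
    linarith
  exact ratio_contra hC (by positivity) hΔ0 hlow' hM1
    ((le_max_right _ _).trans (le_max_right _ _)) hmain

/-- Constant of the slope bound. -/
def Klow (C : ℝ) (m : ℕ) : ℝ := max (Mst C m) (C₁ C m * Mpair C m + 1)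

/-- Difference quotients along the axis of a host are at least its slope minus a multiple of its
flatness. -/
theorem slope_lower (hI : Inputs S) {x q : E} {R a : ℝ} (hH : S.Host x q R a)
    (hlow : 1 - S.η ≤ ‖q‖ - Klow S.C S.m * (a / R) ^ 2) {h : ℝ} (h0 : 0 < h)
    (hsmall : Ast S.C * h * Real.sqrt (Klow S.C S.m * (a / R) ^ 2) ≤ a) :
    (‖q‖ - Klow S.C S.m * (a / R) ^ 2 / 4) * h ≤ S.u (x + h • axisDir q) - S.u x := by
  have hC := hI.C_pos
  have hR := hH.R_pos
  have ha := hH.a_pos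
  set K := Klow S.C S.m with hKdef
  set Δ := K * (a / R) ^ 2 with hΔdef
  have hes : Mst S.C S.m * (a / R) ^ 2 ≤ Δ :=
    mul_le_mul_of_nonneg_right (le_max_left _ _) (sq_nonneg _)
  have hΔη : Δ ≤ (S.C + 2) * S.η := by
    have := hI.upper hH
    have h3 : 0 ≤ S.η := by
      by_contra hneg
      push Not at hneg
      have := mul_neg_of_pos_of_neg hC hneg
      have := hH.norm_ge
      linarith
    linarith
  have hsm : Small S ((a / R) ^ 2) Δ := small_of_deficit hI (by positivity) hes hΔη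
  by_contra hD
  push Not at hD
  set X := Ast S.C * h * Real.sqrt Δ with hX
  have hX0 : 0 < X := by
    have : 0 < Real.sqrt Δ := Real.sqrt_pos.2 hsm.pos
    have : 0 < Ast S.C := by unfold Ast; linarith
    positivity
  set r := S.child x q R a with hr
  have hex : ∃ N, lrad r N ≤ X := by
    obtain ⟨N, hN⟩ := pow_unbounded_of_one_lt (a / 2 / X) one_lt_two
    refine ⟨N, ?_⟩
    rw [lrad, div_le_iff₀ (by positivity)]
    rw [div_lt_iff₀ hX0] at hN
    simp only [hr, Setting.child]
    linarith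
  have hN := Nat.find_spec hex
  have hN2 : X ≤ 2 * lrad r (Nat.find hex) := by
    rcases Nat.eq_zero_or_pos (Nat.find hex) with h | h
    · rw [h]; simp only [lrad, hr, Setting.child, pow_zero, div_one]; linarith
    · obtain ⟨k, hk⟩ : ∃ k, Nat.find hex = k + 1 := ⟨Nat.find hex - 1, by omega⟩
      have := Nat.find_min hex (m := k) (by omega)
      rw [hk, lrad_succ]
      linarith
  have hmain := low_point_bound hI hH (le_max_left _ _) hes hΔη (by linarith) h0 hN hN2
    (M := Mpair S.C S.m) (by linarith) (fun y hy i i' hii' _ hv => by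
      have h := pair_bound hI (i' - i) _ y (child_root hI hH hy) (child_subset_top hH) i
        (by rwa [Nat.add_sub_cancel' hii'])
      rwa [Nat.add_sub_cancel' hii'] at h)
  have he : 0 < a / R := by positivity
  have hK1 : C₁ S.C S.m * Mpair S.C S.m + 1 ≤ K := le_max_right _ _
  have hC1 : 0 ≤ C₁ S.C S.m * Mpair S.C S.m := by
    have : (0 : ℝ) ≤ Mpair S.C S.m := le_trans zero_le_one (le_max_left _ _)
    have := kst_pos hC S.m
    rw [C₁]; positivity
  have hs : Real.sqrt Δ = Real.sqrt K * (a / R) := by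
    rw [hΔdef, Real.sqrt_mul (by linarith), Real.sqrt_sq he.le]
  rw [hs, mul_pow] at hmain
  have h1 : Real.sqrt K ^ 3 ≤ C₁ S.C S.m * Mpair S.C S.m :=
    le_of_mul_le_mul_right hmain (pow_pos he 3)
  have h2 : K ≤ Real.sqrt K ^ 3 := by
    have h3 : 1 ≤ Real.sqrt K := Real.one_le_sqrt.2 (by linarith)
    calc K = Real.sqrt K ^ 2 := (Real.sq_sqrt (by linarith)).symm
      _ ≤ Real.sqrt K ^ 3 := pow_le_pow_right₀ h3 (by norm_num)
  linarith

end

end Vale.Agent.P080C1.Cells
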